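import Vale.Agent.P071.H334.Est

set_option linter.all false

/-!
# Interior `C¹` bounds for sums of eigenfunctions
-/

open MeasureTheory Metric Filter Topology Set
open scoped ContDiff ENNReal

namespace Vale.Agent.P071.HF

open Lim

/-! ### Uniform summability from square sums -/

theorem uni_le {ι E : Type*} [NormedAddCommGroup E] [CompleteSpace E] {f : ι → ℂ → E} {b : ι → ℝ}
    {K : Set ℂ} {C : ℝ} (hb : ∀ i, 0 ≤ b i) (hC : 0 ≤ C) (hs : Summable b)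
    (h : ∀ t : Finset ι, ∀ z ∈ K, ‖∑ i ∈ t, f i z‖ ^ 2 ≤ C * ∑ i ∈ t, b i) :
    (∀ z ∈ K, Summable (fun i => f i z)) ∧
      TendstoUniformlyOn (fun (t : Finset ι) z => ∑ i ∈ t, f i z) (fun z => ∑' i, f i z) atTop K ∧
      ∀ z ∈ K, ‖∑' i, f i z‖ ^ 2 ≤ C * ∑' i, b i := by
  have hvan : ∀ ε : ℝ, 0 < ε → ∃ s : Finset ι, ∀ t : Finset ι, Disjoint t s → ∀ z ∈ K,
      ‖∑ i ∈ t, f i z‖ < ε := by
    intro ε hε
    obtain ⟨s, hs'⟩ := summable_iff_vanishing_norm.1 hs (ε ^ 2 / (C + 1)) (by positivity)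
    refine ⟨s, fun t ht z hz => ?_⟩
    have h1 := hs' t ht
    rw [Real.norm_of_nonneg (Finset.sum_nonneg fun i _ => hb i), lt_div_iff₀ (by positivity)] at h1
    have h2 := h t z hz
    have h3 : 0 ≤ ∑ i ∈ t, b i := Finset.sum_nonneg fun i _ => hb i
    have h4 : ‖∑ i ∈ t, f i z‖ ^ 2 < ε ^ 2 := by nlinarith
    exact lt_of_pow_lt_pow_left₀ 2 hε.le h4
  have hsum : ∀ z ∈ K, Summable (fun i => f i z) := fun z hz =>
    summable_iff_vanishing_norm.2 fun ε hε => by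
      obtain ⟨s, hs'⟩ := hvan ε hε
      exact ⟨s, fun t ht => hs' t ht z hz⟩
  refine ⟨hsum, ?_, fun z hz => ?_⟩
  · rw [Metric.tendstoUniformlyOn_iff]
    intro ε hε
    obtain ⟨s₀, hs₀⟩ := hvan (ε / 2) (by positivity)
    filter_upwards [eventually_ge_atTop s₀] with s hs z hz
    rw [dist_eq_norm]
    have hlim : Tendsto (fun t : Finset ι => ‖(∑ i ∈ t, f i z) - ∑ i ∈ s, f i z‖) atTop
        (𝓝 ‖(∑' i, f i z) - ∑ i ∈ s, f i z‖) :=
      ((hsum z hz).hasSum.sub_const _).norm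
    refine lt_of_le_of_lt (le_of_tendsto hlim ?_) (half_lt_self hε)
    classical
    filter_upwards [eventually_ge_atTop s] with t ht
    have e : (∑ i ∈ t, f i z) - ∑ i ∈ s, f i z = ∑ i ∈ t \ s, f i z := by
      rw [← Finset.sum_sdiff ht, add_sub_cancel_right]
    rw [e]
    exact (hs₀ (t \ s) (Finset.sdiff_disjoint.mono_right hs) z hz).le
  · have hlim : Tendsto (fun t : Finset ι => ‖∑ i ∈ t, f i z‖ ^ 2) atTop
        (𝓝 (‖∑' i, f i z‖ ^ 2)) := ((hsum z hz).hasSum.norm).pow 2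
    refine le_of_tendsto hlim (Eventually.of_forall fun t => (h t z hz).trans ?_)
    exact mul_le_mul_of_nonneg_left (hs.sum_le_tsum t fun i _ => hb i) hC

section

variable {Ω : Set ℂ} {ι : Type*} [DecidableEq ι] {e : ι → ℂ → ℝ} {κ : ι → ℝ}

theorem sum_smooth (h2 : ∀ i, ContDiffOn ℝ 2 (e i) Ω) (a : ι → ℝ) (s : Finset ι) :
    ContDiffOn ℝ 2 (fun z => ∑ i ∈ s, a i * e i z) Ω :=
  ContDiffOn.sum fun i _ => contDiffOn_const.mul (h2 i)

theorem px_sum (ho : IsOpen Ω) (h2 : ∀ i, ContDiffOn ℝ 2 (e i) Ω) (a : ι → ℝ) (s : Finset ι)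
    {z : ℂ} (hz : z ∈ Ω) : px (fun z => ∑ i ∈ s, a i * e i z) z = ∑ i ∈ s, a i * px (e i) z := by
  classical
  have hd : ∀ i, DifferentiableAt ℝ (e i) z := fun i =>
    ((h2 i).differentiableOn (by norm_num)).differentiableAt (ho.mem_nhds hz)
  unfold px
  rw [fderiv_fun_sum fun i _ => (hd i).const_mul (a i)]
  simp only [ContinuousLinearMap.sum_apply]
  refine Finset.sum_congr rfl fun i _ => ?_
  rw [fderiv_const_mul (hd i)]
  simp

theorem py_sum (ho : IsOpen Ω) (h2 : ∀ i, ContDiffOn ℝ 2 (e i) Ω) (a : ι → ℝ) (s : Finset ι)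
    {z : ℂ} (hz : z ∈ Ω) : py (fun z => ∑ i ∈ s, a i * e i z) z = ∑ i ∈ s, a i * py (e i) z := by
  classical
  have hd : ∀ i, DifferentiableAt ℝ (e i) z := fun i =>
    ((h2 i).differentiableOn (by norm_num)).differentiableAt (ho.mem_nhds hz)
  unfold py
  rw [fderiv_fun_sum fun i _ => (hd i).const_mul (a i)]
  simp only [ContinuousLinearMap.sum_apply]
  refine Finset.sum_congr rfl fun i _ => ?_
  rw [fderiv_const_mul (hd i)]
  simp

theorem lap_sum (ho : IsOpen Ω) (h2 : ∀ i, ContDiffOn ℝ 2 (e i) Ω)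
    (heq : ∀ i, ∀ z ∈ Ω, -Lim.lap (e i) z = κ i * e i z) (a : ι → ℝ) (s : Finset ι)
    {z : ℂ} (hz : z ∈ Ω) :
    Lim.lap (fun z => ∑ i ∈ s, a i * e i z) z = ∑ i ∈ s, (-(κ i * a i)) * e i z := by
  classical
  induction s using Finset.induction_on with
  | empty =>
    simp only [Finset.sum_empty]
    have : px (fun _ : ℂ => (0 : ℝ)) = fun _ => 0 := by
      funext y; simp [px]
    have h' : py (fun _ : ℂ => (0 : ℝ)) = fun _ => 0 := by
      funext y; simp [py]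
    unfold Lim.lap
    rw [this, h', this, h']
    simp
  | insert i s hi ih =>
    have e1 : (fun z => ∑ j ∈ insert i s, a j * e j z) =
        fun z => a i * e i z + 1 * ∑ j ∈ s, a j * e j z := by
      funext y
      rw [Finset.sum_insert hi, one_mul]
    unfold Lim.lap at ih ⊢
    rw [e1, pxx_lin ho (a i) 1 (h2 i) (sum_smooth h2 a s) hz,
      pyy_lin ho (a i) 1 (h2 i) (sum_smooth h2 a s) hz, Finset.sum_insert hi]
    have h3 := heq i z hz
    unfold Lim.lap at h3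
    linear_combination ih - a i * h3

theorem int_quad {μ : Measure ℂ} {B : ι → ι → ℂ → ℝ} {d : ι → ℝ}
    (hB : ∀ i j, Integrable (B i j) μ) (hd : ∀ i j, ∫ z, B i j z ∂μ = if i = j then d i else 0)
    (a : ι → ℝ) (s : Finset ι) :
    ∫ z, (∑ i ∈ s, ∑ j ∈ s, a i * a j * B i j z) ∂μ = ∑ i ∈ s, a i ^ 2 * d i := by
  classical
  have i1 : ∀ i j, Integrable (fun z => a i * a j * B i j z) μ := fun i j => (hB i j).const_mul _
  rw [integral_finset_sum _ fun i _ => integrable_finset_sum _ fun j _ => i1 i j]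
  refine Finset.sum_congr rfl fun i hi => ?_
  rw [integral_finset_sum _ fun j _ => i1 i j]
  have e1 : ∀ j ∈ s, ∫ z, a i * a j * B i j z ∂μ = if i = j then a i ^ 2 * d i else 0 := by
    intro j _
    rw [integral_const_mul, hd]
    split_ifs with h
    · subst h; ring
    · simp
  rw [Finset.sum_congr rfl e1, Finset.sum_ite_eq]
  simp [hi]

theorem int_sum_sq (hH : ∀ i, IsH1 Ω (e i) (px (e i)) (py (e i)))
    (on : ∀ i j, ∫ z in Ω, e i z * e j z = if i = j then 1 else 0) (a : ι → ℝ) (s : Finset ι) :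
    ∫ z in Ω, (∑ i ∈ s, a i * e i z) ^ 2 = ∑ i ∈ s, a i ^ 2 := by
  have h := int_quad (μ := volume.restrict Ω) (B := fun i j z => e i z * e j z)
    (d := fun _ => (1 : ℝ)) (fun i j => (hH i).v_mem.integrable_mul (hH j).v_mem) on a s
  simp only [mul_one] at h
  rw [← h]
  refine integral_congr_ae (Eventually.of_forall fun z => ?_)
  simp only
  rw [sq, Finset.sum_mul_sum]
  refine Finset.sum_congr rfl fun i _ => Finset.sum_congr rfl fun j _ => ?_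
  ring

theorem int_sum_gsq (ho : IsOpen Ω) (h2 : ∀ i, ContDiffOn ℝ 2 (e i) Ω)
    (hH : ∀ i, IsH1 Ω (e i) (px (e i)) (py (e i)))
    (og : ∀ i j, ∫ z in Ω, (px (e i) z * px (e j) z + py (e i) z * py (e j) z) =
      if i = j then κ i else 0) (a : ι → ℝ) (s : Finset ι) :
    ∫ z in Ω, gsq (fun z => ∑ i ∈ s, a i * e i z) z = ∑ i ∈ s, a i ^ 2 * κ i := by
  have h := int_quad (μ := volume.restrict Ω)
    (B := fun i j z => px (e i) z * px (e j) z + py (e i) z * py (e j) z)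
    (d := κ) (fun i j => ((hH i).gx_mem.integrable_mul (hH j).gx_mem).add
      ((hH i).gy_mem.integrable_mul (hH j).gy_mem)) og a s
  rw [← h]
  refine setIntegral_congr_fun ho.measurableSet fun z hz => ?_
  simp only [gsq]
  rw [px_sum ho h2 a s hz, py_sum ho h2 a s hz, sq, sq, Finset.sum_mul_sum, Finset.sum_mul_sum,
    ← Finset.sum_add_distrib]
  refine Finset.sum_congr rfl fun i _ => ?_
  rw [← Finset.sum_add_distrib]
  refine Finset.sum_congr rfl fun j _ => ?_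
  ring

theorem mem_sum (hH : ∀ i, IsH1 Ω (e i) (px (e i)) (py (e i))) (a : ι → ℝ) (s : Finset ι) :
    MemLp (fun z => ∑ i ∈ s, a i * e i z) 2 (volume.restrict Ω) :=
  memLp_finset_sum s fun i _ => (hH i).v_mem.const_mul (a i)

theorem int_gsq_sum (ho : IsOpen Ω) (h2 : ∀ i, ContDiffOn ℝ 2 (e i) Ω)
    (hH : ∀ i, IsH1 Ω (e i) (px (e i)) (py (e i))) (a : ι → ℝ) (s : Finset ι) :
    IntegrableOn (gsq (fun z => ∑ i ∈ s, a i * e i z)) Ω := by
  have m1 : MemLp (fun z => ∑ i ∈ s, a i * px (e i) z) 2 (volume.restrict Ω) :=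
    memLp_finset_sum s fun i _ => (hH i).gx_mem.const_mul (a i)
  have m2 : MemLp (fun z => ∑ i ∈ s, a i * py (e i) z) 2 (volume.restrict Ω) :=
    memLp_finset_sum s fun i _ => (hH i).gy_mem.const_mul (a i)
  have h : IntegrableOn (fun z => (∑ i ∈ s, a i * px (e i) z) ^ 2 +
      (∑ i ∈ s, a i * py (e i) z) ^ 2) Ω := m1.integrable_sq.add m2.integrable_sq
  refine h.congr_fun (fun z hz => ?_) ho.measurableSet
  simp only [gsq]
  rw [px_sum ho h2 a s hz, py_sum ho h2 a s hz]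

/-- Value estimate for finite sums. -/
theorem fin_val (ho : IsOpen Ω) (h0 : ∀ i, 0 ≤ κ i) (h2 : ∀ i, ContDiffOn ℝ 2 (e i) Ω)
    (heq : ∀ i, ∀ z ∈ Ω, -Lim.lap (e i) z = κ i * e i z)
    (hH : ∀ i, IsH1 Ω (e i) (px (e i)) (py (e i)))
    (on : ∀ i j, ∫ z in Ω, e i z * e j z = if i = j then 1 else 0)
    (og : ∀ i j, ∫ z in Ω, (px (e i) z * px (e j) z + py (e i) z * py (e j) z) =
      if i = j then κ i else 0) {R : ℝ} (hR : 0 < R) :
    ∃ C : ℝ, 0 < C ∧ ∀ (a : ι → ℝ) (s : Finset ι) (z : ℂ), ball z R ⊆ Ω →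
      (∑ i ∈ s, a i * e i z) ^ 2 ≤ C * ∑ i ∈ s, (1 + κ i) ^ 2 * a i ^ 2 := by
  obtain ⟨C, hC, h⟩ := sq_le_of_ball hR
  refine ⟨C, hC, fun a s z hz => ?_⟩
  have m1 : IntegrableOn (fun z => (∑ i ∈ s, a i * e i z) ^ 2) Ω :=
    (mem_sum hH a s).integrable_sq
  have m2 := int_gsq_sum ho h2 hH a s
  have m3 : IntegrableOn (fun z => Lim.lap (fun z => ∑ i ∈ s, a i * e i z) z ^ 2) Ω := by
    have : IntegrableOn (fun z => (∑ i ∈ s, (-(κ i * a i)) * e i z) ^ 2) Ω :=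
      (mem_sum hH (fun i => -(κ i * a i)) s).integrable_sq
    exact this.congr_fun (fun x hx => by simp only; rw [lap_sum ho h2 heq a s hx])
      ho.measurableSet
  have m12 : IntegrableOn (fun z => (∑ i ∈ s, a i * e i z) ^ 2 +
      gsq (fun z => ∑ i ∈ s, a i * e i z) z) Ω := m1.add m2
  have m : IntegrableOn (fun z => (∑ i ∈ s, a i * e i z) ^ 2 +
      gsq (fun z => ∑ i ∈ s, a i * e i z) z +
        Lim.lap (fun z => ∑ i ∈ s, a i * e i z) z ^ 2) Ω := m12.add m3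
  have h1 := h z _ ((sum_smooth h2 a s).mono hz) (m.mono_set hz)
  have h3 : ∫ z in ball z R, ((∑ i ∈ s, a i * e i z) ^ 2 +
      gsq (fun z => ∑ i ∈ s, a i * e i z) z +
        Lim.lap (fun z => ∑ i ∈ s, a i * e i z) z ^ 2) ≤
      ∫ z in Ω, ((∑ i ∈ s, a i * e i z) ^ 2 +
      gsq (fun z => ∑ i ∈ s, a i * e i z) z +
        Lim.lap (fun z => ∑ i ∈ s, a i * e i z) z ^ 2) := by
    refine setIntegral_mono_set m (Eventually.of_forall fun z => ?_) hz.eventuallyLE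
    have := gsq_nonneg_bd400 (fun z => ∑ i ∈ s, a i * e i z) z
    show 0 ≤ (∑ i ∈ s, a i * e i z) ^ 2 + gsq (fun z => ∑ i ∈ s, a i * e i z) z +
        Lim.lap (fun z => ∑ i ∈ s, a i * e i z) z ^ 2
    positivity
  have h4 : ∫ z in Ω, ((∑ i ∈ s, a i * e i z) ^ 2 + gsq (fun z => ∑ i ∈ s, a i * e i z) z +
        Lim.lap (fun z => ∑ i ∈ s, a i * e i z) z ^ 2) =
      ∑ i ∈ s, (1 + κ i + κ i ^ 2) * a i ^ 2 := by
    rw [integral_add m12 m3, integral_add m1 m2, int_sum_sq hH on a s,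
      int_sum_gsq ho h2 hH og a s]
    have e1 : ∫ z in Ω, Lim.lap (fun z => ∑ i ∈ s, a i * e i z) z ^ 2 =
        ∑ i ∈ s, (-(κ i * a i)) ^ 2 := by
      rw [← int_sum_sq hH on (fun i => -(κ i * a i)) s]
      exact setIntegral_congr_fun ho.measurableSet fun x hx => by
        rw [lap_sum ho h2 heq a s hx]
    rw [e1, ← Finset.sum_add_distrib, ← Finset.sum_add_distrib]
    refine Finset.sum_congr rfl fun i _ => ?_
    ring
  have h5 : ∑ i ∈ s, (1 + κ i + κ i ^ 2) * a i ^ 2 ≤ ∑ i ∈ s, (1 + κ i) ^ 2 * a i ^ 2 := by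
    refine Finset.sum_le_sum fun i _ => mul_le_mul_of_nonneg_right ?_ (sq_nonneg _)
    nlinarith [h0 i]
  refine h1.trans (mul_le_mul_of_nonneg_left ?_ hC.le)
  linarith

/-- Value and gradient estimate for finite sums. -/
theorem fin_est (ho : IsOpen Ω) (h0 : ∀ i, 0 ≤ κ i) (h2 : ∀ i, ContDiffOn ℝ 2 (e i) Ω)
    (heq : ∀ i, ∀ z ∈ Ω, -Lim.lap (e i) z = κ i * e i z)
    (hH : ∀ i, IsH1 Ω (e i) (px (e i)) (py (e i)))
    (on : ∀ i j, ∫ z in Ω, e i z * e j z = if i = j then 1 else 0)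
    (og : ∀ i j, ∫ z in Ω, (px (e i) z * px (e j) z + py (e i) z * py (e j) z) =
      if i = j then κ i else 0) {K : Set ℂ} (hK : IsCompact K) (hKO : K ⊆ Ω) :
    ∃ C : ℝ, 0 < C ∧ ∀ (a : ι → ℝ) (s : Finset ι), ∀ z ∈ K,
      (∑ i ∈ s, a i * e i z) ^ 2 ≤ C * ∑ i ∈ s, (1 + κ i) ^ 4 * a i ^ 2 ∧
      gsq (fun z => ∑ i ∈ s, a i * e i z) z ≤ C * ∑ i ∈ s, (1 + κ i) ^ 4 * a i ^ 2 := by
  obtain ⟨R, hR, hRK⟩ := exists_radius hK ho hKO
  obtain ⟨C, hC, h⟩ := fin_val ho h0 h2 heq hH on og hR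
  obtain ⟨C3, hC3, h3⟩ := gsq_le_of_sup hR
  refine ⟨C + C3 * C, by positivity, fun a s x hx => ?_⟩
  set S := ∑ i ∈ s, (1 + κ i) ^ 4 * a i ^ 2 with hS
  have hS0 : 0 ≤ S := Finset.sum_nonneg fun i _ => by
    have := h0 i
    positivity
  have hsub : ball x R ⊆ Ω := hRK x hx x (mem_ball_self hR)
  have hv : ∀ z ∈ ball x R, (∑ i ∈ s, a i * e i z) ^ 2 ≤ C * S := fun z hz => by
    refine (h a s z (hRK x hx z hz)).trans (mul_le_mul_of_nonneg_left ?_ hC.le)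
    refine Finset.sum_le_sum fun i _ => mul_le_mul_of_nonneg_right ?_ (sq_nonneg _)
    have := h0 i
    exact pow_le_pow_right₀ (by linarith) (by norm_num)
  have hl : ∀ z ∈ ball x R, Lim.lap (fun z => ∑ i ∈ s, a i * e i z) z ^ 2 ≤ C * S := by
    intro z hz
    rw [lap_sum ho h2 heq a s (hsub hz)]
    refine (h (fun i => -(κ i * a i)) s z (hRK x hx z hz)).trans
      (mul_le_mul_of_nonneg_left ?_ hC.le)
    refine Finset.sum_le_sum fun i _ => ?_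
    have := h0 i
    have e1 : (1 + κ i) ^ 2 * (-(κ i * a i)) ^ 2 = ((1 + κ i) ^ 2 * κ i ^ 2) * a i ^ 2 := by ring
    rw [e1]
    refine mul_le_mul_of_nonneg_right ?_ (sq_nonneg _)
    have e2 : (1 + κ i) ^ 4 = (1 + κ i) ^ 2 * (1 + κ i) ^ 2 := by ring
    rw [e2]
    refine mul_le_mul_of_nonneg_left ?_ (sq_nonneg _)
    nlinarith
  have h4 := h3 x _ (√(C * S)) ((sum_smooth h2 a s).mono hsub)
    (fun z hz => ⟨Real.abs_le_sqrt (hv z hz), Real.abs_le_sqrt (hl z hz)⟩)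
  rw [Real.sq_sqrt (by positivity)] at h4
  have h5 := hv x (mem_ball_self hR)
  have h6 : 0 ≤ C3 * C * S := by positivity
  have h7 : 0 ≤ C * S := by positivity
  exact ⟨by nlinarith, by nlinarith⟩

/-- All facts on infinite sums, on a compact set. -/
theorem inf_est (ho : IsOpen Ω) (h0 : ∀ i, 0 ≤ κ i) (h2 : ∀ i, ContDiffOn ℝ 2 (e i) Ω)
    (heq : ∀ i, ∀ z ∈ Ω, -Lim.lap (e i) z = κ i * e i z)
    (hH : ∀ i, IsH1 Ω (e i) (px (e i)) (py (e i)))
    (on : ∀ i j, ∫ z in Ω, e i z * e j z = if i = j then 1 else 0)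
    (og : ∀ i j, ∫ z in Ω, (px (e i) z * px (e j) z + py (e i) z * py (e j) z) =
      if i = j then κ i else 0) {K : Set ℂ} (hK : IsCompact K) (hKO : K ⊆ Ω) :
    ∃ C : ℝ, 0 < C ∧ ∀ a : ι → ℝ, Summable (fun i => (1 + κ i) ^ 4 * a i ^ 2) →
      (∀ z ∈ K, Summable fun i => a i * e i z) ∧
      (∀ z ∈ K, (∑' i, a i * e i z) ^ 2 ≤ C * ∑' i, (1 + κ i) ^ 4 * a i ^ 2) ∧
      (∀ z ∈ K, ‖∑' i, a i • fderiv ℝ (e i) z‖ ^ 2 ≤ C * ∑' i, (1 + κ i) ^ 4 * a i ^ 2) ∧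
      TendstoUniformlyOn (fun (t : Finset ι) z => ∑ i ∈ t, a i • fderiv ℝ (e i) z)
        (fun z => ∑' i, a i • fderiv ℝ (e i) z) atTop K := by
  obtain ⟨C, hC, h⟩ := fin_est ho h0 h2 heq hH on og hK hKO
  refine ⟨4 * C, by positivity, fun a ha => ?_⟩
  have hb : ∀ i, 0 ≤ (1 + κ i) ^ 4 * a i ^ 2 := fun i => by
    have := h0 i
    positivity
  have hS : ∀ t : Finset ι, 0 ≤ ∑ i ∈ t, (1 + κ i) ^ 4 * a i ^ 2 := fun t =>
    Finset.sum_nonneg fun i _ => hb i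
  have k1 : ∀ t : Finset ι, ∀ z ∈ K, ‖∑ i ∈ t, a i * e i z‖ ^ 2 ≤
      4 * C * ∑ i ∈ t, (1 + κ i) ^ 4 * a i ^ 2 := fun t z hz => by
    rw [Real.norm_eq_abs, sq_abs]
    have := (h a t z hz).1
    have := mul_nonneg hC.le (hS t)
    nlinarith
  have k2 : ∀ t : Finset ι, ∀ z ∈ K, ‖∑ i ∈ t, a i • fderiv ℝ (e i) z‖ ^ 2 ≤
      4 * C * ∑ i ∈ t, (1 + κ i) ^ 4 * a i ^ 2 := fun t z hz => by
    have hd : ∀ i, DifferentiableAt ℝ (e i) z := fun i =>
      ((h2 i).differentiableOn (by norm_num)).differentiableAt (ho.mem_nhds (hKO hz))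
    have e1 : ∑ i ∈ t, a i • fderiv ℝ (e i) z = fderiv ℝ (fun z => ∑ i ∈ t, a i * e i z) z := by
      rw [fderiv_fun_sum fun i _ => (hd i).const_mul (a i)]
      refine Finset.sum_congr rfl fun i _ => ?_
      rw [fderiv_const_mul (hd i)]
    rw [e1]
    have h3 := CompA.norm_fderiv_le_gsq (fun z => ∑ i ∈ t, a i * e i z) z
    have h4 := (h a t z hz).2
    have h5 := gsq_nonneg_bd400 (fun z => ∑ i ∈ t, a i * e i z) z
    calc ‖fderiv ℝ (fun z => ∑ i ∈ t, a i * e i z) z‖ ^ 2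
        ≤ (2 * √(gsq (fun z => ∑ i ∈ t, a i * e i z) z)) ^ 2 :=
          pow_le_pow_left₀ (norm_nonneg _) h3 2
      _ = 4 * gsq (fun z => ∑ i ∈ t, a i * e i z) z := by
          rw [mul_pow, Real.sq_sqrt h5]; norm_num
      _ ≤ _ := by linarith
  obtain ⟨a1, a2, a3⟩ := uni_le hb (by positivity) ha k1
  obtain ⟨b1, b2, b3⟩ := uni_le hb (by positivity) ha k2
  refine ⟨a1, fun z hz => ?_, b3, b2⟩
  have := a3 z hz
  rwa [Real.norm_eq_abs, sq_abs] at this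

theorem c1_hasFDerivAt (ho : IsOpen Ω) (h0 : ∀ i, 0 ≤ κ i) (h2 : ∀ i, ContDiffOn ℝ 2 (e i) Ω)
    (heq : ∀ i, ∀ z ∈ Ω, -Lim.lap (e i) z = κ i * e i z)
    (hH : ∀ i, IsH1 Ω (e i) (px (e i)) (py (e i)))
    (on : ∀ i j, ∫ z in Ω, e i z * e j z = if i = j then 1 else 0)
    (og : ∀ i j, ∫ z in Ω, (px (e i) z * px (e j) z + py (e i) z * py (e j) z) =
      if i = j then κ i else 0) {a : ι → ℝ} (ha : Summable (fun i => (1 + κ i) ^ 4 * a i ^ 2)) :
    (∀ z ∈ Ω, Summable fun i => a i * e i z) ∧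
    (∀ z ∈ Ω, HasFDerivAt (fun z => ∑' i, a i * e i z) (∑' i, a i • fderiv ℝ (e i) z) z) ∧
    ContinuousOn (fun z => ∑' i, a i • fderiv ℝ (e i) z) Ω := by
  have hsum : ∀ z ∈ Ω, Summable fun i => a i * e i z := fun z hz => by
    obtain ⟨C, hC, h⟩ := inf_est ho h0 h2 heq hH on og (K := {z}) isCompact_singleton
      (by simpa using hz)
    exact (h a ha).1 z rfl
  have htl : TendstoLocallyUniformlyOn (fun (t : Finset ι) z => ∑ i ∈ t, a i • fderiv ℝ (e i) z)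
      (fun z => ∑' i, a i • fderiv ℝ (e i) z) atTop Ω := by
    rw [tendstoLocallyUniformlyOn_iff_forall_isCompact ho]
    intro K hKO hK
    obtain ⟨C, hC, h⟩ := inf_est ho h0 h2 heq hH on og hK hKO
    exact (h a ha).2.2.2
  refine ⟨hsum, fun z hz => ?_, ?_⟩
  · refine hasFDerivAt_of_tendstoLocallyUniformlyOn ho htl
      (f := fun (t : Finset ι) z => ∑ i ∈ t, a i * e i z) ?_ (fun x hx => (hsum x hx).hasSum) hz
    intro t x hx
    refine HasFDerivAt.fun_sum fun i _ => ?_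
    exact (((h2 i).differentiableOn (by norm_num)).differentiableAt
      (ho.mem_nhds hx)).hasFDerivAt.const_mul (a i)
  · refine htl.continuousOn (Frequently.of_forall fun t => ?_)
    refine continuousOn_finset_sum t fun i _ => ?_
    exact (((h2 i).of_le (by norm_num : (1 : WithTop ℕ∞) ≤ 2)).continuousOn_fderiv_of_isOpen ho
      le_rfl).const_smul (a i)

theorem c1_diff (ho : IsOpen Ω) (h0 : ∀ i, 0 ≤ κ i) (h2 : ∀ i, ContDiffOn ℝ 2 (e i) Ω)
    (heq : ∀ i, ∀ z ∈ Ω, -Lim.lap (e i) z = κ i * e i z)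
    (hH : ∀ i, IsH1 Ω (e i) (px (e i)) (py (e i)))
    (on : ∀ i j, ∫ z in Ω, e i z * e j z = if i = j then 1 else 0)
    (og : ∀ i j, ∫ z in Ω, (px (e i) z * px (e j) z + py (e i) z * py (e j) z) =
      if i = j then κ i else 0) (a : ι → ℝ) (ha : Summable (fun i => (1 + κ i) ^ 4 * a i ^ 2)) :
    ContDiffOn ℝ 1 (fun z => ∑' i, a i * e i z) Ω ∧ ∀ z ∈ Ω, Summable fun i => a i * e i z := by
  obtain ⟨h3, h4, h5⟩ := c1_hasFDerivAt ho h0 h2 heq hH on og ha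
  exact ⟨RegA.c1_of_hasFDerivAt ho h5 h4, h3⟩

theorem gsq_le_norm (w : ℂ → ℝ) (z : ℂ) : gsq w z ≤ 2 * ‖fderiv ℝ w z‖ ^ 2 := by
  have h1 : |px w z| ≤ ‖fderiv ℝ w z‖ := by
    have := (fderiv ℝ w z).le_opNorm 1
    simpa [px] using this
  have h2 : |py w z| ≤ ‖fderiv ℝ w z‖ := by
    have := (fderiv ℝ w z).le_opNorm Complex.I
    simpa [py] using this
  have h3 := sq_le_sq' (by linarith [neg_abs_le (px w z), abs_nonneg (px w z)] :
    -‖fderiv ℝ w z‖ ≤ px w z) ((le_abs_self _).trans h1)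
  have h4 := sq_le_sq' (by linarith [neg_abs_le (py w z), abs_nonneg (py w z)] :
    -‖fderiv ℝ w z‖ ≤ py w z) ((le_abs_self _).trans h2)
  unfold gsq
  linarith

theorem c1_sum (ho : IsOpen Ω) {ι : Type*} [DecidableEq ι] (e : ι → ℂ → ℝ) (κ : ι → ℝ) (h0 : ∀ i, 0 ≤ κ i)
    (h2 : ∀ i, ContDiffOn ℝ 2 (e i) Ω)
    (heq : ∀ i, ∀ z ∈ Ω, -Lim.lap (e i) z = κ i * e i z)
    (hH : ∀ i, IsH1 Ω (e i) (px (e i)) (py (e i)))
    (on : ∀ i j, ∫ z in Ω, e i z * e j z = if i = j then 1 else 0)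
    (og : ∀ i j, ∫ z in Ω, (px (e i) z * px (e j) z + py (e i) z * py (e j) z) =
      if i = j then κ i else 0) {K : Set ℂ} (hK : IsCompact K) (hKΩ : K ⊆ Ω) :
    ∃ C : ℝ, ∀ a : ι → ℝ, Summable (fun i => (1 + κ i) ^ 4 * a i ^ 2) → ∀ z ∈ K,
      (∑' i, a i * e i z) ^ 2 + Lim.gsq (fun y => ∑' i, a i * e i y) z ≤
        C * ∑' i, (1 + κ i) ^ 4 * a i ^ 2 := by
  obtain ⟨C, hC, h⟩ := inf_est ho h0 h2 heq hH on og hK hKΩ
  refine ⟨3 * C, fun a ha z hz => ?_⟩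
  obtain ⟨k1, k2, k3, -⟩ := h a ha
  obtain ⟨-, h4, -⟩ := c1_hasFDerivAt ho h0 h2 heq hH on og ha
  have h5 := gsq_le_norm (fun y => ∑' i, a i * e i y) z
  rw [(h4 z (hKΩ hz)).fderiv] at h5
  have h6 := k2 z hz
  have h7 := k3 z hz
  linarith

end

end Vale.Agent.P071.HF
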