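import Vale.Agent.P071.Stmt

/-!
# P071: the heat flow with Neumann boundary condition (definition used by the statement)
-/

open MeasureTheory Filter Topology

namespace Vale.Agent.P071

/-- `∂u/∂t` at time `t`, as a function of `x`. -/
noncomputable def dt (u : ℝ → ℂ → ℝ) (t : ℝ) (x : ℂ) : ℝ := deriv (fun s => u s x) t

/-- `u(t, x)`, `t > 0`, `x ∈ Ω`, is a solution of the heat equation `∂u/∂t = Δu` in `Ω` with
`∂u/∂ν = 0` on `∂Ω` (no heat passes through the boundary): `u` is of class `C²` on `(0,∞) × Ω` and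
`∂u/∂t = Δu` there; `u(t,·) ∈ H¹(Ω)`, `∂u/∂t(t,·) ∈ L²(Ω)` and
`∫ ∂u/∂t φ = -∫ ∇u · ∇φ` for all `φ ∈ H¹(Ω)`, for every `t > 0`; and `t ↦ u(t,·) ∈ L²(Ω)` is
differentiable with derivative `∂u/∂t(t,·)`. -/
structure IsHeatFlow (Ω : Set ℂ) (u : ℝ → ℂ → ℝ) : Prop where
  smooth : ContDiffOn ℝ 2 (fun p : ℝ × ℂ => u p.1 p.2) (Set.Ioi 0 ×ˢ Ω)
  heat : ∀ t : ℝ, 0 < t → ∀ x ∈ Ω, dt u t x = px (px (u t)) x + py (py (u t)) x
  h1 : ∀ t : ℝ, 0 < t → IsH1 Ω (u t) (px (u t)) (py (u t))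
  dt_mem : ∀ t : ℝ, 0 < t → MemLp (dt u t) 2 (volume.restrict Ω)
  neumann : ∀ t : ℝ, 0 < t → ∀ v hx hy : ℂ → ℝ, IsH1 Ω v hx hy →
    ∫ z in Ω, dt u t z * v z = -∫ z in Ω, (px (u t) z * hx z + py (u t) z * hy z)
  l2 : ∀ t : ℝ, 0 < t →
    Tendsto (fun h : ℝ => ∫ z in Ω, ((u (t + h) z - u t z) / h - dt u t z) ^ 2) (𝓝[≠] 0) (𝓝 0)

end Vale.Agent.P071
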