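import Vale.Agent.P071.H334.Int

set_option linter.all false

/-!
# Interior estimates for heat flows
-/

open MeasureTheory Metric Filter Topology Set
open scoped ContDiff ENNReal

namespace Vale.Agent.P071.HF

open Lim

variable {Ω : Set ℂ}

theorem exists_radius {K : Set ℂ} (hK : IsCompact K) (ho : IsOpen Ω) (hKO : K ⊆ Ω) :
    ∃ R : ℝ, 0 < R ∧ ∀ x ∈ K, ∀ z ∈ ball x R, ball z R ⊆ Ω := by
  obtain ⟨δ, hδ, h⟩ := hK.exists_thickening_subset_open ho hKO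
  refine ⟨δ / 2, by positivity, fun x hx z hz y hy => h ?_⟩
  refine ball_subset_thickening hx δ ?_
  rw [mem_ball] at *
  calc dist y x ≤ dist y z + dist z x := dist_triangle _ _ _
    _ < δ := by linarith

theorem lap_eq {u : ℝ → ℂ → ℝ} (hu : ∀ t : ℝ, 0 < t → ∀ x ∈ Ω, dt u t x = px (px (u t)) x + py (py (u t)) x)
    {t : ℝ} (ht : 0 < t) {x : ℂ} (hx : x ∈ Ω) : Lim.lap (u t) x = dt u t x := by
  rw [hu t ht x hx]; rfl

theorem val (ho : IsOpen Ω) {R : ℝ} (hR : 0 < R) : ∃ C : ℝ, 0 < C ∧ ∀ u : ℝ → ℂ → ℝ,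
    IsHeatFlow Ω u → ∀ t : ℝ, 1 < t → ∀ z : ℂ, ball z R ⊆ Ω →
      u t z ^ 2 ≤ C * ∫ z in Ω, u (t - 1) z ^ 2 := by
  obtain ⟨C, hC, h⟩ := sq_le_of_ball hR
  refine ⟨3 * C, by positivity, fun u hu t ht z hz => ?_⟩
  have h0 : 0 < t := by linarith
  have m1 : IntegrableOn (fun z => u t z ^ 2) Ω := (hu.h1 t h0).v_mem.integrable_sq
  have m2 : IntegrableOn (gsq (u t)) Ω :=
    (hu.h1 t h0).gx_mem.integrable_sq.add (hu.h1 t h0).gy_mem.integrable_sq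
  have m3 : IntegrableOn (fun z => Lim.lap (u t) z ^ 2) Ω := by
    have : IntegrableOn (fun z => dt u t z ^ 2) Ω := (hu.dt_mem t h0).integrable_sq
    exact this.congr_fun (fun x hx => by simp only; rw [lap_eq hu.heat h0 hx]) ho.measurableSet
  have m : IntegrableOn (fun z => u t z ^ 2 + gsq (u t) z + Lim.lap (u t) z ^ 2) Ω :=
    (m1.add m2).add m3
  have h1 := h z (u t) ((smooth_x ho hu h0).mono hz) (m.mono_set hz)
  have h2 : ∫ z in ball z R, (u t z ^ 2 + gsq (u t) z + Lim.lap (u t) z ^ 2) ≤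
      ∫ z in Ω, (u t z ^ 2 + gsq (u t) z + Lim.lap (u t) z ^ 2) := by
    refine setIntegral_mono_set m (Eventually.of_forall fun z => ?_) hz.eventuallyLE
    have := gsq_nonneg_bd400 (u t) z
    show 0 ≤ u t z ^ 2 + gsq (u t) z + Lim.lap (u t) z ^ 2
    positivity
  have h3 : ∫ z in Ω, (u t z ^ 2 + gsq (u t) z + Lim.lap (u t) z ^ 2) =
      (∫ z in Ω, u t z ^ 2) + (∫ z in Ω, (px (u t) z ^ 2 + py (u t) z ^ 2)) +
        ∫ z in Ω, dt u t z ^ 2 := by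
    have i12 : IntegrableOn (fun z => u t z ^ 2 + gsq (u t) z) Ω := m1.add m2
    rw [integral_add i12 m3, integral_add m1 m2]
    congr 1
    exact setIntegral_congr_fun ho.measurableSet fun x hx => by
      rw [lap_eq hu.heat h0 hx]
  have h4 := M_anti ho hu (s := t - 1) (t := t) (by linarith) (by linarith)
  have h5 := E_le ho hu ht
  have h6 := D_le ho hu ht
  calc u t z ^ 2 ≤ _ := h1
    _ ≤ C * (3 * ∫ z in Ω, u (t - 1) z ^ 2) := by
        refine mul_le_mul_of_nonneg_left ?_ hC.le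
        rw [h3] at h2
        linarith
    _ = 3 * C * ∫ z in Ω, u (t - 1) z ^ 2 := by ring

theorem val_dt (ho : IsOpen Ω) {R : ℝ} (hR : 0 < R) : ∃ C : ℝ, 0 < C ∧ ∀ u : ℝ → ℂ → ℝ,
    IsHeatFlow Ω u → ∀ t : ℝ, 2 < t → ∀ z ∈ Ω, ball z R ⊆ Ω →
      dt u t z ^ 2 ≤ C * ∫ z in Ω, u (t - 2) z ^ 2 := by
  obtain ⟨C, hC, h⟩ := val ho hR
  refine ⟨C, hC, fun u hu t ht z hzΩ hz => ?_⟩
  have h0 : 0 < t := by linarith
  have h0' : 0 < t - 1 := by linarith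
  have hfl : ∀ e : ℝ, 0 < e → IsHeatFlow Ω (fun s z => e⁻¹ * u (s + e) z + (-e⁻¹) * u s z) :=
    fun e he => IsHeatFlow.lin ho (IsHeatFlow.shift hu he.le) hu _ _
  have h1 : ∀ e : ℝ, 0 < e → (e⁻¹ * (u (t + e) z - u t z)) ^ 2 ≤
      C * ‖e⁻¹ • (tl Ω (u (t - 1 + e)) - tl Ω (u (t - 1)))‖ ^ 2 := by
    intro e he
    have h2 := h _ (hfl e he) t (by linarith) z hz
    have m1 := (hu.h1 (t - 1 + e) (by linarith)).v_mem
    have m2 := (hu.h1 (t - 1) h0').v_mem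
    have m3 : MemLp (fun z => u (t - 1 + e) z - u (t - 1) z) 2 (volume.restrict Ω) := m1.sub m2
    rw [tl_sub m1 m2, tl_smul m3, norm_tl_sq (m3.const_mul _)]
    have e1 : e⁻¹ * (u (t + e) z - u t z) = e⁻¹ * u (t + e) z + (-e⁻¹) * u t z := by ring
    rw [e1]
    refine h2.trans (le_of_eq ?_)
    congr 1
    refine integral_congr_ae (Eventually.of_forall fun y => ?_)
    simp only
    ring
  have l1 : Tendsto (fun e : ℝ => (e⁻¹ * (u (t + e) z - u t z)) ^ 2) (𝓝[>] 0)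
      (𝓝 (dt u t z ^ 2)) := by
    have := (hasDerivAt_iff_tendsto_slope_zero.1 (hasDerivAt_t ho hu h0 hzΩ))
    exact (this.mono_left (nhdsWithin_mono _ fun x hx => ne_of_gt hx)).pow 2
  have l2 : Tendsto (fun e : ℝ => C * ‖e⁻¹ • (tl Ω (u (t - 1 + e)) - tl Ω (u (t - 1)))‖ ^ 2)
      (𝓝[>] 0) (𝓝 (C * ‖tl Ω (dt u (t - 1))‖ ^ 2)) := by
    have := (hasDerivAt_iff_tendsto_slope_zero.1 ((flow ho hu).deriv (t - 1) h0'))
    exact (((this.mono_left (nhdsWithin_mono _ fun x hx => ne_of_gt hx)).norm).pow 2).const_mul C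
  have h3 : dt u t z ^ 2 ≤ C * ‖tl Ω (dt u (t - 1))‖ ^ 2 := by
    refine le_of_tendsto_of_tendsto l1 l2 ?_
    filter_upwards [self_mem_nhdsWithin] with e he
    exact h1 e he
  rw [norm_tl_sq (hu.dt_mem _ h0')] at h3
  have h4 := D_le ho hu (t := t - 1) (by linarith)
  rw [show t - 1 - 1 = t - 2 by ring] at h4
  exact h3.trans (mul_le_mul_of_nonneg_left h4 hC.le)

/-- **Interior estimate** for values and gradients. -/
theorem interior (ho : IsOpen Ω) {K : Set ℂ} (hK : IsCompact K) (hKO : K ⊆ Ω) :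
    ∃ C : ℝ, 0 < C ∧ ∀ u : ℝ → ℂ → ℝ, IsHeatFlow Ω u → ∀ t : ℝ, 2 < t → ∀ x ∈ K,
      u t x ^ 2 ≤ C * (∫ z in Ω, u (t - 2) z ^ 2) ∧
        px (u t) x ^ 2 + py (u t) x ^ 2 ≤ C * ∫ z in Ω, u (t - 2) z ^ 2 := by
  obtain ⟨R, hR, hRK⟩ := exists_radius hK ho hKO
  obtain ⟨C1, hC1, h1⟩ := val ho hR
  obtain ⟨C2, hC2, h2⟩ := val_dt ho hR
  obtain ⟨C3, hC3, h3⟩ := gsq_le_of_sup hR
  refine ⟨max C1 C2 + C3 * max C1 C2, by positivity, fun u hu t ht x hx => ?_⟩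
  set M := ∫ z in Ω, u (t - 2) z ^ 2 with hM
  have hM0 : 0 ≤ M := integral_nonneg fun z => sq_nonneg _
  have h0 : 0 < t := by linarith
  have hm : ∫ z in Ω, u (t - 1) z ^ 2 ≤ M := M_anti ho hu (by linarith) (by linarith)
  have hmax : 0 < max C1 C2 := lt_max_of_lt_left hC1
  have hv : ∀ z ∈ ball x R, u t z ^ 2 ≤ max C1 C2 * M := fun z hz =>
    calc u t z ^ 2 ≤ C1 * ∫ z in Ω, u (t - 1) z ^ 2 := h1 u hu t (by linarith) z (hRK x hx z hz)
      _ ≤ C1 * M := mul_le_mul_of_nonneg_left hm hC1.le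
      _ ≤ _ := mul_le_mul_of_nonneg_right (le_max_left _ _) hM0
  have hsub : ball x R ⊆ Ω := hRK x hx x (mem_ball_self hR)
  have hl : ∀ z ∈ ball x R, Lim.lap (u t) z ^ 2 ≤ max C1 C2 * M := fun z hz => by
    rw [lap_eq hu.heat h0 (hsub hz)]
    exact (h2 u hu t ht z (hsub hz) (hRK x hx z hz)).trans
      (mul_le_mul_of_nonneg_right (le_max_right _ _) hM0)
  have h4 := h3 x (u t) (√(max C1 C2 * M)) ((smooth_x ho hu h0).mono hsub)
    (fun z hz => ⟨Real.abs_le_sqrt (hv z hz), Real.abs_le_sqrt (hl z hz)⟩)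
  rw [Real.sq_sqrt (by positivity)] at h4
  have h5 := hv x (mem_ball_self hR)
  have h6 : 0 ≤ C3 * max C1 C2 * M := by positivity
  have h7 : 0 ≤ max C1 C2 * M := by positivity
  refine ⟨by nlinarith, ?_⟩
  have h8 : px (u t) x ^ 2 + py (u t) x ^ 2 = gsq (u t) x := rfl
  rw [h8]
  nlinarith

end Vale.Agent.P071.HF
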