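import Vale.Agent.P071.H334.Seq
import Vale.Agent.P071.H969.EmbDef

set_option linter.all false

/-!
# The hot spots move to the boundary
-/

open MeasureTheory Metric Filter Topology Set
open scoped ContDiff ENNReal

namespace Vale.Agent.P071.HF

open Lim

variable {Ω : Set ℂ}

/-- The lower bound for `e^{2μt} ∫ u(t)²` given by a nonzero Fourier coefficient. -/
theorem lower (ho : IsOpen Ω) {u : ℝ → ℂ → ℝ} (hu : IsHeatFlow Ω u) {v : ℂ → ℝ} (hv : InV Ω v)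
    {t₀ : ℝ} (ht₀ : 0 < t₀) (h0 : ∫ z in Ω, u t₀ z * v z ≠ 0) :
    ∃ κ : ℝ, 0 < κ ∧ ∀ t : ℝ, 0 < t →
      κ ≤ Real.exp (2 * muOne Ω * t) * ∫ z in Ω, u t z ^ 2 := by
  obtain ⟨gx, gy, hH, hw⟩ := hv
  have hd : ∀ r ∈ Ioi (0 : ℝ), HasDerivAt
      (fun s => Real.exp (muOne Ω * s) * ∫ z in Ω, u s z * v z) 0 r := by
    intro r hr
    have h := hf_pair ho hu hr hH.v_mem
    rw [hu.neumann r hr _ _ _ hH] at h
    have h2 := hw _ _ _ (hu.h1 r hr)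
    have e1 : ∫ z in Ω, (px (u r) z * gx z + py (u r) z * gy z) =
        ∫ z in Ω, (gx z * px (u r) z + gy z * py (u r) z) := by
      refine integral_congr_ae (Eventually.of_forall fun z => ?_)
      simp only; ring
    have e2 : ∫ z in Ω, v z * u r z = ∫ z in Ω, u r z * v z := by
      refine integral_congr_ae (Eventually.of_forall fun z => ?_)
      simp only; ring
    rw [e1, h2, e2] at h
    have h1 : HasDerivAt (fun s : ℝ => Real.exp (muOne Ω * s))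
        (Real.exp (muOne Ω * r) * (muOne Ω * 1)) r :=
      ((hasDerivAt_id r).const_mul (muOne Ω)).exp
    refine (h1.mul h).congr_deriv ?_
    ring
  have key : ∀ t : ℝ, 0 < t → Real.exp (muOne Ω * t) * (∫ z in Ω, u t z * v z) =
      Real.exp (muOne Ω * t₀) * ∫ z in Ω, u t₀ z * v z := by
    intro t ht
    refine (convex_Ioi (0 : ℝ)).is_const_of_fderivWithin_eq_zero (𝕜 := ℝ)
      (f := fun s => Real.exp (muOne Ω * s) * ∫ z in Ω, u s z * v z)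
      (fun r hr => (hd r hr).differentiableAt.differentiableWithinAt) (fun r hr => ?_) ht ht₀
    rw [fderivWithin_of_isOpen isOpen_Ioi hr, (hd r hr).hasFDerivAt.fderiv]
    simp
  set c := Real.exp (muOne Ω * t₀) * ∫ z in Ω, u t₀ z * v z with hc
  have hc0 : c ≠ 0 := mul_ne_zero (Real.exp_pos _).ne' h0
  set N := ∫ z in Ω, v z ^ 2 with hN
  have hcs : ∀ t : ℝ, 0 < t → (∫ z in Ω, u t z * v z) ^ 2 ≤ (∫ z in Ω, u t z ^ 2) * N := by
    intro t ht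
    have h := abs_real_inner_le_norm (tl Ω (u t)) (tl Ω v)
    rw [inner_tl (hu.h1 t ht).v_mem hH.v_mem] at h
    have h2 := pow_le_pow_left₀ (abs_nonneg _) h 2
    rwa [sq_abs, mul_pow, norm_tl_sq (hu.h1 t ht).v_mem, norm_tl_sq hH.v_mem] at h2
  have hN0 : 0 < N := by
    have h1 : 0 ≤ N := integral_nonneg fun z => sq_nonneg _
    rcases h1.eq_or_lt with h | h
    · exfalso
      have h2 := hcs t₀ ht₀
      rw [← h, mul_zero] at h2
      exact h0 (pow_eq_zero_iff two_ne_zero |>.1 (le_antisymm h2 (sq_nonneg _)))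
    · exact h
  refine ⟨c ^ 2 / N, by positivity, fun t ht => ?_⟩
  rw [div_le_iff₀ hN0, ← key t ht, mul_pow, ← Real.exp_nat_mul]
  have e : ((2 : ℕ) : ℝ) * (muOne Ω * t) = 2 * muOne Ω * t := by push_cast; ring
  have h := mul_le_mul_of_nonneg_left (hcs t ht) (Real.exp_pos (2 * muOne Ω * t)).le
  rw [e]
  exact h.trans_eq (by ring)

/-- Without critical points the supremum over a compact set is exceeded. -/
theorem exists_above {w : ℂ → ℝ} (hcr : ∀ x ∈ Ω, fderiv ℝ w x ≠ 0) (hne : Ω.Nonempty)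
    (ho : IsOpen Ω) (hc : ContinuousOn w Ω) {K : Set ℂ} (hK : IsCompact K) (hKO : K ⊆ Ω) :
    ∃ y ∈ Ω, ∃ δ : ℝ, 0 < δ ∧ ∀ x ∈ K, w x + δ ≤ w y := by
  rcases K.eq_empty_or_nonempty with rfl | hKne
  · obtain ⟨y, hy⟩ := hne
    exact ⟨y, hy, 1, one_pos, fun x hx => absurd hx (notMem_empty _)⟩
  · obtain ⟨x₀, hx₀, hmax⟩ := hK.exists_isMaxOn hKne (hc.mono hKO)
    have h1 : ¬ IsLocalMax w x₀ := fun h => hcr x₀ (hKO hx₀) h.fderiv_eq_zero
    have h2 : ∃ᶠ y in 𝓝 x₀, ¬ w y ≤ w x₀ := by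
      rw [Filter.Frequently]
      intro h
      apply h1
      refine h.mono fun y hy => ?_
      exact not_not.1 hy
    obtain ⟨y, hy, hyΩ⟩ := (h2.and_eventually (ho.mem_nhds (hKO hx₀))).exists
    refine ⟨y, hyΩ, w y - w x₀, by linarith [not_le.1 hy], fun x hx => ?_⟩
    have := hmax hx
    simp only [mem_setOf_eq] at this
    linarith

theorem exists_below {w : ℂ → ℝ} (hcr : ∀ x ∈ Ω, fderiv ℝ w x ≠ 0) (hne : Ω.Nonempty)
    (ho : IsOpen Ω) (hc : ContinuousOn w Ω) {K : Set ℂ} (hK : IsCompact K) (hKO : K ⊆ Ω) :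
    ∃ y ∈ Ω, ∃ δ : ℝ, 0 < δ ∧ ∀ x ∈ K, w y + δ ≤ w x := by
  obtain ⟨y, hy, δ, hδ, h⟩ := exists_above (w := fun z => -w z) (fun x hx h => hcr x hx (by
    have h2 : fderiv ℝ (fun z => -w z) x = -fderiv ℝ w x := fderiv_fun_neg
    rw [h2, neg_eq_zero] at h
    exact h)) hne ho hc.neg hK hKO
  exact ⟨y, hy, δ, hδ, fun x hx => by linarith [h x hx]⟩

/-- If `a u - β w` is small in `C¹` on `K ∪ {y₁, y₂}`, then `u` inherits the properties of `w`. -/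
theorem transfer {w : ℂ → ℝ} {K : Set ℂ} {γ δ β₀ : ℝ} (hγ : 0 < γ) (hδ : 0 < δ) (hβ₀ : 0 < β₀)
    (hg : ∀ x ∈ K, γ ≤ px w x ^ 2 + py w x ^ 2) {y₁ y₂ : ℂ}
    (h1 : ∀ x ∈ K, w x + δ ≤ w y₁) (h2 : ∀ x ∈ K, w y₂ + δ ≤ w x) :
    ∃ ε : ℝ, 0 < ε ∧ ∀ (f : ℂ → ℝ) (a β : ℝ), 0 < a → β₀ ≤ β →
      (∀ x ∈ K ∪ {y₁, y₂}, (a * f x - β * w x) ^ 2 < ε ∧
        (a * px f x - β * px w x) ^ 2 + (a * py f x - β * py w x) ^ 2 < ε) →
      (∀ x ∈ K, fderiv ℝ f x ≠ 0) ∧ (∀ x ∈ K, f x < f y₁) ∧ (∀ x ∈ K, f y₂ < f x) := by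
  refine ⟨min (β₀ ^ 2 * γ) ((β₀ * δ / 2) ^ 2), by positivity, fun f a β ha hβ h => ?_⟩
  have hlt : ∀ x ∈ K ∪ {y₁, y₂}, |a * f x - β * w x| < β₀ * δ / 2 := fun x hx => by
    have h3 := ((h x hx).1).trans_le (min_le_right _ _)
    exact abs_lt_of_sq_lt_sq h3 (by positivity)
  have hβδ : β₀ * δ ≤ β * δ := mul_le_mul_of_nonneg_right hβ hδ.le
  have hβ0 : 0 < β := hβ₀.trans_le hβ
  refine ⟨fun x hx h0 => ?_, fun x hx => ?_, fun x hx => ?_⟩
  · have h3 := ((h x (Or.inl hx)).2).trans_le (min_le_left _ _)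
    have e1 : px f x = 0 := by unfold px; rw [h0]; simp
    have e2 : py f x = 0 := by unfold py; rw [h0]; simp
    rw [e1, e2] at h3
    have h4 := hg x hx
    have h5 : β₀ ^ 2 ≤ β ^ 2 := pow_le_pow_left₀ hβ₀.le hβ 2
    have h6 : β₀ ^ 2 * γ ≤ β ^ 2 * (px w x ^ 2 + py w x ^ 2) :=
      mul_le_mul h5 h4 hγ.le (sq_nonneg _)
    nlinarith
  · have a1 := abs_lt.1 (hlt x (Or.inl hx))
    have a2 := abs_lt.1 (hlt y₁ (Or.inr (by simp)))
    have a3 : β * (w x + δ) ≤ β * w y₁ := mul_le_mul_of_nonneg_left (h1 x hx) hβ0.le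
    have a4 : a * f x < a * f y₁ := by nlinarith
    exact lt_of_mul_lt_mul_left a4 ha.le
  · have a1 := abs_lt.1 (hlt x (Or.inl hx))
    have a2 := abs_lt.1 (hlt y₂ (Or.inr (by simp)))
    have a3 : β * (w y₂ + δ) ≤ β * w x := mul_le_mul_of_nonneg_left (h2 x hx) hβ0.le
    have a4 : a * f y₂ < a * f x := by nlinarith
    exact lt_of_mul_lt_mul_left a4 ha.le

/-- **The hot spots of a heat flow leave every compact subset of the domain.** -/
theorem heat_main (ho : IsOpen Ω) (hb : Bornology.IsBounded Ω) (hs : IsSimplyConnected Ω)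
    (hΩ : LipschitzBoundary Ω ∨ CompactEmbedding Ω) {u : ℝ → ℂ → ℝ} (hu : IsHeatFlow Ω u)
    (hv : ∃ v : ℂ → ℝ, InV Ω v ∧ ∃ t : ℝ, 0 < t ∧ ∫ z in Ω, u t z * v z ≠ 0)
    {K : Set ℂ} (hKO : K ⊆ Ω) (hK : IsCompact K) :
    ∃ T : ℝ, ∀ t : ℝ, T ≤ t → (∀ x ∈ K, fderiv ℝ (u t) x ≠ 0) ∧
      (∃ y ∈ Ω, ∀ x ∈ K, u t x < u t y) ∧ (∃ y ∈ Ω, ∀ x ∈ K, u t y < u t x) := by
  have hT := NC.tight_of_or ho hb hΩ
  obtain ⟨v, hv, t₀, ht₀, hvt⟩ := hv
  have hne : Ω.Nonempty := by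
    rw [nonempty_iff_ne_empty]
    rintro rfl
    simp at hvt
  obtain ⟨-, -, -, -, hμ⟩ : ∃ f : ℂ → ℂ, Conf f (deriv f) ∧ f '' DD = Ω ∧ TailU (deriv f) ∧
      0 < muOne Ω := NC.setup ho hb hs hT
  obtain ⟨m, hF, hm⟩ := exists_mean ho hb hne hu
  -- `∫ v = 0`
  have hv0 : ∫ z in Ω, v z = 0 := by
    obtain ⟨gx, gy, hH, hw⟩ := hv
    have h := hw _ _ _ (isH1_one ho hb)
    simp only [mul_zero, add_zero, integral_zero, mul_one] at h
    rcases mul_eq_zero.1 h.symm with h | h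
    · exact absurd h hμ.ne'
    · exact h
  have hvt' : ∫ z in Ω, (1 * u t₀ z + (-m) * 1) * v z ≠ 0 := by
    obtain ⟨gx, gy, hH, hw⟩ := hv
    have i1 : Integrable (fun z => u t₀ z * v z) (volume.restrict Ω) :=
      (hu.h1 t₀ ht₀).v_mem.integrable_mul hH.v_mem
    haveI hfm : IsFiniteMeasure (volume.restrict Ω) := ⟨by simpa using hb.measure_lt_top⟩
    have i2 : Integrable v (volume.restrict Ω) := hH.v_mem.integrable (by norm_num)
    have e : ∫ z in Ω, (1 * u t₀ z + (-m) * 1) * v z =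
        (∫ z in Ω, u t₀ z * v z) + (-m) * ∫ z in Ω, v z := by
      rw [← integral_const_mul, ← integral_add i1 (i2.const_mul _)]
      refine integral_congr_ae (Eventually.of_forall fun z => ?_)
      simp only; ring
    rw [e, hv0, mul_zero, add_zero]
    exact hvt
  obtain ⟨κ, hκ, hκM⟩ := lower ho hF hv ht₀ hvt'
  by_contra hcon
  push Not at hcon
  have hch : ∀ n : ℕ, ∃ t : ℝ, (n : ℝ) + 7 ≤ t ∧ ¬ ((∀ x ∈ K, fderiv ℝ (u t) x ≠ 0) ∧
      (∃ y ∈ Ω, ∀ x ∈ K, u t x < u t y) ∧ (∃ y ∈ Ω, ∀ x ∈ K, u t y < u t x)) := by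
    intro n
    obtain ⟨t, ht, h⟩ := hcon ((n : ℝ) + 7)
    refine ⟨t, ht, fun ⟨h1, h2, h3⟩ => ?_⟩
    obtain ⟨y, hy, hy2⟩ := h3
    obtain ⟨x, hx, hx2⟩ := h h1 h2 y hy
    exact absurd (hy2 x hx) (not_lt.2 hx2)
  choose t ht hnot using hch
  have httop : Tendsto t atTop atTop := by
    refine tendsto_atTop_mono ht ?_
    exact tendsto_atTop_add_const_right _ _ tendsto_natCast_atTop_atTop
  have ht7 : ∀ n, 7 ≤ t n := fun n => by
    have := ht n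
    have h2 : (0 : ℝ) ≤ n := Nat.cast_nonneg n
    linarith
  obtain ⟨ν, w, a, β, β₀, hν, hwV, hwc, hw0, hβ₀, ha, hβ, hfin⟩ :=
    seq_main ho hb hT hF hm hκ hκM httop ht7
  have hcr := NC.no_crit ho hb hs hT hwV hwc hw0
  have hsm := (NC.smooth_of_inV ho hwV hwc).1
  obtain ⟨y₁, hy₁, δ₁, hδ₁, hy₁'⟩ := exists_above hcr hne ho hwc hK hKO
  obtain ⟨y₂, hy₂, δ₂, hδ₂, hy₂'⟩ := exists_below hcr hne ho hwc hK hKO
  -- a lower bound for the gradient of `w` on `K`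
  have hγ : ∃ γ : ℝ, 0 < γ ∧ ∀ x ∈ K, γ ≤ px w x ^ 2 + py w x ^ 2 := by
    rcases K.eq_empty_or_nonempty with rfl | hKne
    · exact ⟨1, one_pos, fun x hx => absurd hx (notMem_empty _)⟩
    · have hc1 : ContinuousOn (fun x => px w x ^ 2 + py w x ^ 2) Ω :=
        ((px_contDiffOn ho hsm).continuousOn.pow 2).add ((py_contDiffOn ho hsm).continuousOn.pow 2)
      obtain ⟨x₀, hx₀, hmin⟩ := hK.exists_isMinOn hKne (hc1.mono hKO)
      refine ⟨px w x₀ ^ 2 + py w x₀ ^ 2, ?_, fun x hx => hmin hx⟩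
      have h1 : 0 ≤ px w x₀ ^ 2 + py w x₀ ^ 2 := add_nonneg (sq_nonneg _) (sq_nonneg _)
      rcases h1.eq_or_lt with h | h
      · exfalso
        apply hcr x₀ (hKO hx₀)
        have h2 := CompA.norm_fderiv_le_gsq w x₀
        have h3 : gsq w x₀ = 0 := h.symm
        rw [h3, Real.sqrt_zero, mul_zero] at h2
        exact norm_le_zero_iff.1 h2
      · exact h
  obtain ⟨γ, hγ, hγ'⟩ := hγ
  obtain ⟨ε, hε, htr⟩ := transfer (w := w) hγ (lt_min hδ₁ hδ₂) hβ₀ hγ' (y₁ := y₁) (y₂ := y₂)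
    (fun x hx => by linarith [hy₁' x hx, min_le_left δ₁ δ₂])
    (fun x hx => by linarith [hy₂' x hx, min_le_right δ₁ δ₂])
  have hK' : IsCompact (K ∪ {y₁, y₂}) := hK.union (Set.toFinite _).isCompact
  have hK'O : K ∪ {y₁, y₂} ⊆ Ω := by
    rintro x (hx | hx)
    · exact hKO hx
    · rcases hx with rfl | hx
      · exact hy₁
      · rw [mem_singleton_iff.1 hx]; exact hy₂
  obtain ⟨e, he, hen⟩ := hfin _ hK'O hK'
  obtain ⟨n, hn⟩ := (he.eventually (gt_mem_nhds hε)).exists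
  have ht0 : 0 < t (ν n) := by linarith [ht7 (ν n)]
  obtain ⟨r1, r2, r3⟩ := htr _ (a n) (β n) (ha n) (hβ n)
    (fun x hx => ⟨((hen n x hx).1).trans_lt hn, ((hen n x hx).2).trans_lt hn⟩)
  apply hnot (ν n)
  refine ⟨fun x hx h => r1 x hx ?_, ⟨y₁, hy₁, fun x hx => ?_⟩, ⟨y₂, hy₂, fun x hx => ?_⟩⟩
  · have hd := diffAt_x ho hu ht0 (hKO hx)
    have h1 : HasFDerivAt (fun z => 1 * u (t (ν n)) z + (-m) * 1)
        ((1 : ℝ) • fderiv ℝ (u (t (ν n))) x) x := (hd.hasFDerivAt.const_mul 1).add_const _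
    rw [h1.fderiv, h, smul_zero]
  · have := r2 x hx
    linarith
  · have := r3 x hx
    linarith

end Vale.Agent.P071.HF
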