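import Vale.Agent.P071.MathlibUsed
import Mathlib.Analysis.InnerProductSpace.Calculus

set_option linter.all false

/-!
# Symmetric dissipative evolutions in a real inner product space
-/

open Set Filter Topology

namespace Vale.Agent.P071.HF

variable {H : Type*} [NormedAddCommGroup H] [InnerProductSpace ℝ H]

/-- `U' = V`, symmetric and dissipative. -/
structure Flow (U V : ℝ → H) : Prop where
  deriv : ∀ t : ℝ, 0 < t → HasDerivAt U (V t) t
  symm : ∀ a b : ℝ, 0 < a → 0 < b → inner ℝ (V a) (U b) = inner ℝ (U a) (V b)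
  diss1 : ∀ t : ℝ, 0 < t → inner ℝ (V t) (U t) ≤ 0
  diss : ∀ a b : ℝ, 0 < a → 0 < b → inner ℝ (V a - V b) (U a - U b) ≤ 0

namespace Flow

variable {U V : ℝ → H}

theorem norm_sq (h : Flow U V) {t : ℝ} (ht : 0 < t) :
    HasDerivAt (fun s => ‖U s‖ ^ 2) (2 * inner ℝ (V t) (U t)) t := by
  have := (h.deriv t ht).norm_sq
  rwa [real_inner_comm] at this

theorem anti_of {f f' : ℝ → ℝ} (h : ∀ t, 0 < t → HasDerivAt f (f' t) t) (h' : ∀ t, 0 < t → f' t ≤ 0) :
    AntitoneOn f (Ioi 0) := by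
  refine antitoneOn_of_deriv_nonpos (convex_Ioi 0)
    (fun t ht => (h t ht).continuousAt.continuousWithinAt) (fun t ht => ?_) (fun t ht => ?_)
  · rw [interior_Ioi] at ht
    exact (h t ht).differentiableAt.differentiableWithinAt
  · rw [interior_Ioi] at ht
    rw [(h t ht).deriv]
    exact h' t ht

theorem norm_anti (h : Flow U V) {s t : ℝ} (hs : 0 < s) (hst : s ≤ t) : ‖U t‖ ≤ ‖U s‖ := by
  have h1 := anti_of (fun t ht => h.norm_sq ht) (fun t ht => by linarith [h.diss1 t ht])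
    (show s ∈ Ioi 0 from hs) (show t ∈ Ioi 0 from hs.trans_le hst) hst
  exact le_of_sq_le_sq h1 (norm_nonneg _)

theorem shift_sub (h : Flow U V) {e : ℝ} (he : 0 < e) :
    ∀ {s t : ℝ}, 0 < s → s ≤ t → ‖U (t + e) - U t‖ ≤ ‖U (s + e) - U s‖ := by
  intro s t hs hst
  have hd : ∀ t, 0 < t → HasDerivAt (fun s => ‖U (s + e) - U s‖ ^ 2)
      (2 * inner ℝ (U (t + e) - U t) (V (t + e) - V t)) t := by
    intro t ht
    have h1 : HasDerivAt (fun s => U (s + e)) (V (t + e)) t :=
      (h.deriv (t + e) (by linarith)).comp_add_const t e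
    exact (h1.sub (h.deriv t ht)).norm_sq
  have h1 := anti_of hd (fun t ht => by
      have := h.diss (t + e) t (by linarith) ht
      rw [real_inner_comm] at this
      linarith)
    (show s ∈ Ioi 0 from hs) (show t ∈ Ioi 0 from hs.trans_le hst) hst
  exact le_of_sq_le_sq h1 (norm_nonneg _)

theorem V_anti (h : Flow U V) {s t : ℝ} (hs : 0 < s) (hst : s ≤ t) : ‖V t‖ ≤ ‖V s‖ := by
  have hlim : ∀ t, 0 < t → Tendsto (fun e : ℝ => ‖e⁻¹ • (U (t + e) - U t)‖) (𝓝[>] 0)
      (𝓝 ‖V t‖) := by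
    intro t ht
    have h1 := (hasDerivAt_iff_tendsto_slope_zero.1 (h.deriv t ht))
    exact (h1.mono_left (nhdsWithin_mono _ fun x hx => (ne_of_gt hx))).norm
  refine le_of_tendsto_of_tendsto (hlim t (hs.trans_le hst)) (hlim s hs) ?_
  filter_upwards [self_mem_nhdsWithin] with e he
  rw [norm_smul, norm_smul]
  exact mul_le_mul_of_nonneg_left (h.shift_sub he hs hst) (norm_nonneg _)

/-- `⟨U(a), U(b)⟩` depends only on `a + b`. -/
theorem inner_eq (h : Flow U V) {r a : ℝ} (ha : 0 < a) (har : a < r) :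
    inner ℝ (U a) (U (r - a)) = ‖U (r / 2)‖ ^ 2 := by
  have hd : ∀ s ∈ Ioo (0 : ℝ) r, HasDerivWithinAt (fun s => inner ℝ (U s) (U (r - s))) 0
      (Ioo 0 r) s := by
    intro s hs
    have h1 := h.deriv s hs.1
    have h2 : HasDerivAt (fun s => U (r - s)) (-V (r - s)) s := by
      have := (h.deriv (r - s) (by linarith [hs.2])).scomp s ((hasDerivAt_id s).const_sub r)
      simpa [Function.comp_def] using this
    have h3 := h1.inner ℝ h2
    have h4 := h.symm s (r - s) hs.1 (by linarith [hs.2])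
    rw [inner_neg_right, h4, neg_add_cancel] at h3
    exact h3.hasDerivWithinAt
  have := (convex_Ioo (0 : ℝ) r).norm_image_sub_le_of_norm_hasDerivWithin_le (C := 0) hd
    (fun s hs => by simp) (x := a) (y := r / 2) ⟨ha, har⟩ ⟨by linarith, by linarith⟩
  rw [zero_mul, norm_le_zero_iff, sub_eq_zero] at this
  rw [← this, show r - r / 2 = r / 2 by ring, real_inner_self_eq_norm_sq]

theorem hasDerivAt_F (h : Flow U V) {r a : ℝ} (ha : 0 < a) (har : a < r) :
    HasDerivAt (fun r => ‖U (r / 2)‖ ^ 2) (inner ℝ (U a) (V (r - a))) r := by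
  have h2 : HasDerivAt (fun r => U (r - a)) (V (r - a)) r :=
    (h.deriv (r - a) (by linarith)).comp_sub_const r a
  have h3 : HasDerivAt (fun r => inner ℝ (U a) (U (r - a))) (inner ℝ (U a) (V (r - a))) r := by
    have := (hasDerivAt_const r (U a)).inner ℝ h2
    simpa using this
  refine h3.congr_of_eventuallyEq ?_
  filter_upwards [lt_mem_nhds har] with r' hr'
  exact (h.inner_eq ha hr').symm

theorem F1_eq (h : Flow U V) {r a : ℝ} (ha : 0 < a) (har : a < r) :
    inner ℝ (V (r / 2)) (U (r / 2)) = inner ℝ (V a) (U (r - a)) := by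
  have h1 := h.hasDerivAt_F ha har
  have h2 := h.hasDerivAt_F (r := r) (a := r / 2) (by linarith) (by linarith)
  have h3 := h1.unique h2
  rw [show r - r / 2 = r / 2 by ring] at h3
  rw [h.symm _ _ (by linarith) (by linarith), ← h3, h.symm a (r - a) ha (by linarith)]

theorem hasDerivAt_F' (h : Flow U V) {r : ℝ} (hr : 0 < r) :
    HasDerivAt (fun r => ‖U (r / 2)‖ ^ 2) (inner ℝ (V (r / 2)) (U (r / 2))) r := by
  have h2 := h.hasDerivAt_F (r := r) (a := r / 2) (by linarith) (by linarith)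
  rw [show r - r / 2 = r / 2 by ring] at h2
  rwa [h.symm _ _ (by linarith) (by linarith)]

theorem hasDerivAt_F1 (h : Flow U V) {r : ℝ} (hr : 0 < r) :
    HasDerivAt (fun r => inner ℝ (V (r / 2)) (U (r / 2))) (‖V (r / 2)‖ ^ 2) r := by
  have h2 : HasDerivAt (fun r' => U (r' - r / 2)) (V (r - r / 2)) r :=
    (h.deriv (r - r / 2) (by linarith)).comp_sub_const r (r / 2)
  have h3 : HasDerivAt (fun r' => inner ℝ (V (r / 2)) (U (r' - r / 2)))
      (inner ℝ (V (r / 2)) (V (r - r / 2))) r := by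
    have := (hasDerivAt_const r (V (r / 2))).inner ℝ h2
    simpa using this
  rw [show r - r / 2 = r / 2 by ring, real_inner_self_eq_norm_sq] at h3
  refine h3.congr_of_eventuallyEq ?_
  filter_upwards [lt_mem_nhds (show r / 2 < r by linarith)] with r' hr'
  exact h.F1_eq (by linarith) hr'

theorem F1_nonpos (h : Flow U V) {r : ℝ} (hr : 0 < r) : inner ℝ (V (r / 2)) (U (r / 2)) ≤ 0 :=
  h.diss1 _ (by linarith)

theorem neg_F1_le (h : Flow U V) {r : ℝ} (hr : 1 < r) :
    -inner ℝ (V (r / 2)) (U (r / 2)) ≤ ‖U ((r - 1) / 2)‖ ^ 2 := by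
  obtain ⟨η, hη, hη'⟩ := exists_hasDerivAt_eq_slope (fun r => ‖U (r / 2)‖ ^ 2)
    (fun r => inner ℝ (V (r / 2)) (U (r / 2))) (show r - 1 < r by linarith)
    (fun s hs => (h.hasDerivAt_F' (by linarith [hs.1])).continuousAt.continuousWithinAt)
    (fun s hs => h.hasDerivAt_F' (by linarith [hs.1]))
  have hmono : inner ℝ (V (η / 2)) (U (η / 2)) ≤ inner ℝ (V (r / 2)) (U (r / 2)) := by
    have := anti_of (f := fun r => -inner ℝ (V (r / 2)) (U (r / 2)))
      (f' := fun r => -‖V (r / 2)‖ ^ 2) (fun t ht => (h.hasDerivAt_F1 ht).neg)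
      (fun t ht => by simpa using sq_nonneg ‖V (t / 2)‖)
      (show η ∈ Ioi 0 by show (0 : ℝ) < η; linarith [hη.1])
      (show r ∈ Ioi 0 by show (0 : ℝ) < r; linarith) hη.2.le
    simpa using this
  have h1 : 0 ≤ ‖U (r / 2)‖ ^ 2 := sq_nonneg _
  have h2 : r - (r - 1) = 1 := by ring
  rw [h2, div_one] at hη'
  linarith

/-- **The bounds.** -/
theorem bounds (h : Flow U V) {t : ℝ} (ht : 1 < t) :
    -inner ℝ (V t) (U t) ≤ ‖U (t - 1)‖ ^ 2 ∧ ‖V t‖ ^ 2 ≤ ‖U (t - 1)‖ ^ 2 := by
  constructor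
  · have h1 := h.neg_F1_le (r := 2 * t) (by linarith)
    rw [show 2 * t / 2 = t by ring] at h1
    have h2 := h.norm_anti (s := t - 1) (t := (2 * t - 1) / 2) (by linarith) (by linarith)
    exact h1.trans (pow_le_pow_left₀ (norm_nonneg _) h2 2)
  · set r := 2 * t with hr
    obtain ⟨ξ, hξ, hξ'⟩ := exists_hasDerivAt_eq_slope
      (fun r => inner ℝ (V (r / 2)) (U (r / 2))) (fun r => ‖V (r / 2)‖ ^ 2)
      (show r - 1 < r by linarith)
      (fun s hs => (h.hasDerivAt_F1 (by linarith [hs.1])).continuousAt.continuousWithinAt)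
      (fun s hs => h.hasDerivAt_F1 (by linarith [hs.1]))
    have h2 : r - (r - 1) = 1 := by ring
    rw [h2, div_one] at hξ'
    have h3 := h.V_anti (s := ξ / 2) (t := r / 2) (by linarith [hξ.1]) (by linarith [hξ.2])
    have h4 : ‖V (r / 2)‖ ^ 2 ≤ ‖V (ξ / 2)‖ ^ 2 := pow_le_pow_left₀ (norm_nonneg _) h3 2
    have h5 := h.F1_nonpos (r := r) (by linarith)
    have h6 := h.neg_F1_le (r := r - 1) (by linarith)
    rw [show (r - 1 - 1) / 2 = t - 1 by rw [hr]; ring] at h6
    rw [show r / 2 = t by rw [hr]; ring] at h4 h5 hξ'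
    linarith

end Flow

end Vale.Agent.P071.HF
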