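import Vale.Agent.P071.H334.Defs
import Vale.Agent.P071.H334.Hilb
import Vale.Agent.P071.H969.Final

set_option linter.all false

/-!
# Heat flows: linearity, the evolution in `L²(Ω)`
-/

open MeasureTheory Metric Filter Topology Set
open scoped ContDiff ENNReal

namespace Vale.Agent.P071.HF

open Lim

variable {Ω : Set ℂ} {u v : ℝ → ℂ → ℝ}

/-! ### Pointwise calculus -/

theorem smooth_x (ho : IsOpen Ω) (hu : IsHeatFlow Ω u) {t : ℝ} (ht : 0 < t) :
    ContDiffOn ℝ 2 (u t) Ω := by
  have h : ContDiffOn ℝ 2 (fun x : ℂ => (t, x)) Ω := (contDiff_prodMk_right t).contDiffOn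
  exact hu.smooth.comp h fun x hx => ⟨ht, hx⟩

theorem diffAt_x (ho : IsOpen Ω) (hu : IsHeatFlow Ω u) {t : ℝ} (ht : 0 < t) {x : ℂ}
    (hx : x ∈ Ω) : DifferentiableAt ℝ (u t) x :=
  ((smooth_x ho hu ht).differentiableOn (by norm_num)).differentiableAt (ho.mem_nhds hx)

theorem hasDerivAt_t (ho : IsOpen Ω) (hu : IsHeatFlow Ω u) {t : ℝ} (ht : 0 < t) {x : ℂ}
    (hx : x ∈ Ω) : HasDerivAt (fun s => u s x) (dt u t x) t := by
  have h1 : ContDiffAt ℝ 2 (fun p : ℝ × ℂ => u p.1 p.2) (t, x) :=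
    hu.smooth.contDiffAt ((isOpen_Ioi.prod ho).mem_nhds ⟨ht, hx⟩)
  have h2 : DifferentiableAt ℝ (fun p : ℝ × ℂ => u p.1 p.2) (t, x) :=
    h1.differentiableAt (by norm_num)
  have h3 : DifferentiableAt ℝ (fun s : ℝ => (s, x)) t :=
    differentiableAt_id.prodMk (differentiableAt_const x)
  have h4 : DifferentiableAt ℝ (fun s : ℝ => u s x) t := by
    have := DifferentiableAt.comp (f := fun s : ℝ => (s, x))
      (g := fun p : ℝ × ℂ => u p.1 p.2) t h2 h3
    exact this
  exact h4.hasDerivAt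

theorem px_lin (a b : ℝ) {f g : ℂ → ℝ} {x : ℂ} (hf : DifferentiableAt ℝ f x)
    (hg : DifferentiableAt ℝ g x) :
    px (fun z => a * f z + b * g z) x = a * px f x + b * px g x := by
  unfold px
  rw [fderiv_fun_add (hf.const_mul a) (hg.const_mul b), fderiv_const_mul hf, fderiv_const_mul hg]
  simp

theorem py_lin (a b : ℝ) {f g : ℂ → ℝ} {x : ℂ} (hf : DifferentiableAt ℝ f x)
    (hg : DifferentiableAt ℝ g x) :
    py (fun z => a * f z + b * g z) x = a * py f x + b * py g x := by
  unfold py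
  rw [fderiv_fun_add (hf.const_mul a) (hg.const_mul b), fderiv_const_mul hf, fderiv_const_mul hg]
  simp

theorem pxx_lin (ho : IsOpen Ω) (a b : ℝ) {f g : ℂ → ℝ} {x : ℂ} (hf : ContDiffOn ℝ 2 f Ω)
    (hg : ContDiffOn ℝ 2 g Ω) (hx : x ∈ Ω) :
    px (px (fun z => a * f z + b * g z)) x = a * px (px f) x + b * px (px g) x := by
  have e : px (fun z => a * f z + b * g z) =ᶠ[𝓝 x] fun z => a * px f z + b * px g z := by
    filter_upwards [ho.mem_nhds hx] with z hz
    exact px_lin a b ((hf.differentiableOn (by norm_num)).differentiableAt (ho.mem_nhds hz))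
      ((hg.differentiableOn (by norm_num)).differentiableAt (ho.mem_nhds hz))
  have h1 : px (px (fun z => a * f z + b * g z)) x = px (fun z => a * px f z + b * px g z) x := by
    unfold px at e ⊢
    rw [e.fderiv_eq]
  rw [h1]
  exact px_lin a b
    (((px_contDiffOn ho hf).differentiableOn (by norm_num)).differentiableAt (ho.mem_nhds hx))
    (((px_contDiffOn ho hg).differentiableOn (by norm_num)).differentiableAt (ho.mem_nhds hx))

theorem pyy_lin (ho : IsOpen Ω) (a b : ℝ) {f g : ℂ → ℝ} {x : ℂ} (hf : ContDiffOn ℝ 2 f Ω)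
    (hg : ContDiffOn ℝ 2 g Ω) (hx : x ∈ Ω) :
    py (py (fun z => a * f z + b * g z)) x = a * py (py f) x + b * py (py g) x := by
  have e : py (fun z => a * f z + b * g z) =ᶠ[𝓝 x] fun z => a * py f z + b * py g z := by
    filter_upwards [ho.mem_nhds hx] with z hz
    exact py_lin a b ((hf.differentiableOn (by norm_num)).differentiableAt (ho.mem_nhds hz))
      ((hg.differentiableOn (by norm_num)).differentiableAt (ho.mem_nhds hz))
  have h1 : py (py (fun z => a * f z + b * g z)) x = py (fun z => a * py f z + b * py g z) x := by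
    unfold py at e ⊢
    rw [e.fderiv_eq]
  rw [h1]
  exact py_lin a b
    (((py_contDiffOn ho hf).differentiableOn (by norm_num)).differentiableAt (ho.mem_nhds hx))
    (((py_contDiffOn ho hg).differentiableOn (by norm_num)).differentiableAt (ho.mem_nhds hx))

theorem IsH1.congr_grad {w gx gy gx' gy' : ℂ → ℝ} (hΩ : MeasurableSet Ω) (h : IsH1 Ω w gx gy)
    (h1 : ∀ z ∈ Ω, gx' z = gx z) (h2 : ∀ z ∈ Ω, gy' z = gy z) : IsH1 Ω w gx' gy' where
  v_mem := h.v_mem
  gx_mem := h.gx_mem.ae_eq ((ae_restrict_iff' hΩ).2 (Eventually.of_forall fun z hz => (h1 z hz).symm))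
  gy_mem := h.gy_mem.ae_eq ((ae_restrict_iff' hΩ).2 (Eventually.of_forall fun z hz => (h2 z hz).symm))
  weak_x φ a b c := by
    rw [h.weak_x φ a b c]
    congr 1
    exact setIntegral_congr_fun hΩ fun z hz => by simp only [h1 z hz]
  weak_y φ a b c := by
    rw [h.weak_y φ a b c]
    congr 1
    exact setIntegral_congr_fun hΩ fun z hz => by simp only [h2 z hz]

theorem dt_lin (ho : IsOpen Ω) (hu : IsHeatFlow Ω u) (hv : IsHeatFlow Ω v) (a b : ℝ) {t : ℝ}
    (ht : 0 < t) {x : ℂ} (hx : x ∈ Ω) :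
    dt (fun s z => a * u s z + b * v s z) t x = a * dt u t x + b * dt v t x :=
  (((hasDerivAt_t ho hu ht hx).const_mul a).add ((hasDerivAt_t ho hv ht hx).const_mul b)).deriv

theorem ae_of {p : ℂ → Prop} (ho : IsOpen Ω) (h : ∀ z ∈ Ω, p z) :
    ∀ᵐ z ∂(volume.restrict Ω), p z :=
  (ae_restrict_iff' ho.measurableSet).2 (Eventually.of_forall h)

theorem int_sq_lin_tendsto {α : Type*} {l : Filter α} {f g : α → ℂ → ℝ} (a b : ℝ)
    {Ω : Set ℂ} (hf : ∀ᶠ e in l, MemLp (f e) 2 (volume.restrict Ω))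
    (hg : ∀ᶠ e in l, MemLp (g e) 2 (volume.restrict Ω))
    (h1 : Tendsto (fun e => ∫ z in Ω, f e z ^ 2) l (𝓝 0))
    (h2 : Tendsto (fun e => ∫ z in Ω, g e z ^ 2) l (𝓝 0)) :
    Tendsto (fun e => ∫ z in Ω, (a * f e z + b * g e z) ^ 2) l (𝓝 0) := by
  have h3 : Tendsto (fun e => 2 * a ^ 2 * (∫ z in Ω, f e z ^ 2) + 2 * b ^ 2 * ∫ z in Ω, g e z ^ 2) l
      (𝓝 0) := by
    have := (h1.const_mul (2 * a ^ 2)).add (h2.const_mul (2 * b ^ 2))
    simpa using this
  refine squeeze_zero' (Eventually.of_forall fun e => integral_nonneg fun z => sq_nonneg _) ?_ h3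
  filter_upwards [hf, hg] with e hfe hge
  have i1 : Integrable (fun z => 2 * a ^ 2 * f e z ^ 2) (volume.restrict Ω) :=
    hfe.integrable_sq.const_mul _
  have i2 : Integrable (fun z => 2 * b ^ 2 * g e z ^ 2) (volume.restrict Ω) :=
    hge.integrable_sq.const_mul _
  rw [← integral_const_mul, ← integral_const_mul, ← integral_add i1 i2]
  refine integral_mono (((hfe.const_mul a).add (hge.const_mul b)).integrable_sq) (i1.add i2) ?_
  intro z
  show (a * f e z + b * g e z) ^ 2 ≤ 2 * a ^ 2 * f e z ^ 2 + 2 * b ^ 2 * g e z ^ 2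
  nlinarith only [sq_nonneg (a * f e z - b * g e z)]

theorem quot_mem (hu : IsHeatFlow Ω u) {t : ℝ} (ht : 0 < t) :
    ∀ᶠ e in 𝓝[≠] (0 : ℝ), MemLp (fun z => (u (t + e) z - u t z) / e - dt u t z) 2
      (volume.restrict Ω) := by
  have h0 : ∀ᶠ e in 𝓝[≠] (0 : ℝ), 0 < t + e := by
    have : ∀ᶠ e in 𝓝 (0 : ℝ), 0 < t + e := by
      have hc : Tendsto (fun e : ℝ => t + e) (𝓝 0) (𝓝 (t + 0)) := by
        exact (continuous_const.add continuous_id).tendsto 0
      rw [add_zero] at hc
      exact hc.eventually (lt_mem_nhds ht)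
    exact this.filter_mono nhdsWithin_le_nhds
  filter_upwards [h0] with e he
  have h1 := ((hu.h1 (t + e) he).v_mem.sub (hu.h1 t ht).v_mem).const_mul e⁻¹
  refine (h1.sub (hu.dt_mem t ht)).ae_eq (Eventually.of_forall fun z => ?_)
  simp only [Pi.sub_apply]
  rw [div_eq_inv_mul]

theorem IsHeatFlow.lin (ho : IsOpen Ω) (hu : IsHeatFlow Ω u) (hv : IsHeatFlow Ω v) (a b : ℝ) :
    IsHeatFlow Ω (fun s z => a * u s z + b * v s z) where
  smooth := (contDiffOn_const.mul hu.smooth).add (contDiffOn_const.mul hv.smooth)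
  heat t ht x hx := by
    rw [dt_lin ho hu hv a b ht hx, pxx_lin ho a b (smooth_x ho hu ht) (smooth_x ho hv ht) hx,
      pyy_lin ho a b (smooth_x ho hu ht) (smooth_x ho hv ht) hx, hu.heat t ht x hx,
      hv.heat t ht x hx]
    ring
  h1 t ht := by
    refine IsH1.congr_grad ho.measurableSet (NC.IsH1.lin (hu.h1 t ht) (hv.h1 t ht) a b)
      (fun z hz => px_lin a b (diffAt_x ho hu ht hz) (diffAt_x ho hv ht hz))
      (fun z hz => py_lin a b (diffAt_x ho hu ht hz) (diffAt_x ho hv ht hz))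
  dt_mem t ht := by
    refine (((hu.dt_mem t ht).const_mul a).add ((hv.dt_mem t ht).const_mul b)).ae_eq ?_
    exact ae_of ho fun z hz => (dt_lin ho hu hv a b ht hz).symm
  neumann t ht w hx hy hw := by
    have i1 : Integrable (fun z => dt u t z * w z) (volume.restrict Ω) :=
      (hu.dt_mem t ht).integrable_mul hw.v_mem
    have i2 : Integrable (fun z => dt v t z * w z) (volume.restrict Ω) :=
      (hv.dt_mem t ht).integrable_mul hw.v_mem
    have i3 : Integrable (fun z => px (u t) z * hx z + py (u t) z * hy z) (volume.restrict Ω) :=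
      ((hu.h1 t ht).gx_mem.integrable_mul hw.gx_mem).add
        ((hu.h1 t ht).gy_mem.integrable_mul hw.gy_mem)
    have i4 : Integrable (fun z => px (v t) z * hx z + py (v t) z * hy z) (volume.restrict Ω) :=
      ((hv.h1 t ht).gx_mem.integrable_mul hw.gx_mem).add
        ((hv.h1 t ht).gy_mem.integrable_mul hw.gy_mem)
    have e1 : ∫ z in Ω, dt (fun s z => a * u s z + b * v s z) t z * w z =
        a * (∫ z in Ω, dt u t z * w z) + b * ∫ z in Ω, dt v t z * w z := by
      rw [← integral_const_mul, ← integral_const_mul, ← integral_add (i1.const_mul a)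
        (i2.const_mul b)]
      refine setIntegral_congr_fun ho.measurableSet fun z hz => ?_
      rw [dt_lin ho hu hv a b ht hz]
      ring
    have e2 : ∫ z in Ω, (px (fun z => a * u t z + b * v t z) z * hx z +
        py (fun z => a * u t z + b * v t z) z * hy z) =
        a * (∫ z in Ω, (px (u t) z * hx z + py (u t) z * hy z)) +
          b * ∫ z in Ω, (px (v t) z * hx z + py (v t) z * hy z) := by
      rw [← integral_const_mul, ← integral_const_mul, ← integral_add (i3.const_mul a)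
        (i4.const_mul b)]
      refine setIntegral_congr_fun ho.measurableSet fun z hz => ?_
      rw [px_lin a b (diffAt_x ho hu ht hz) (diffAt_x ho hv ht hz),
        py_lin a b (diffAt_x ho hu ht hz) (diffAt_x ho hv ht hz)]
      ring
    rw [e1, e2, hu.neumann t ht w hx hy hw, hv.neumann t ht w hx hy hw]
    ring
  l2 t ht := by
    have h := int_sq_lin_tendsto a b (quot_mem hu ht) (quot_mem hv ht) (hu.l2 t ht) (hv.l2 t ht)
    refine h.congr fun e => ?_
    refine setIntegral_congr_fun ho.measurableSet fun z hz => ?_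
    rw [dt_lin ho hu hv a b ht hz]
    ring

theorem dt_shift (c : ℝ) (t : ℝ) (x : ℂ) : dt (fun s => u (s + c)) t x = dt u (t + c) x := by
  unfold dt
  exact deriv_comp_add_const (fun s => u s x) c t

theorem IsHeatFlow.shift (hu : IsHeatFlow Ω u) {c : ℝ} (hc : 0 ≤ c) :
    IsHeatFlow Ω (fun s => u (s + c)) where
  smooth := by
    have h : ContDiffOn ℝ 2 (fun p : ℝ × ℂ => ((p.1 + c, p.2) : ℝ × ℂ)) (Ioi 0 ×ˢ Ω) :=
      ((contDiff_fst.add contDiff_const).prodMk contDiff_snd).contDiffOn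
    exact hu.smooth.comp h fun p hp => ⟨by
      have : 0 < p.1 := hp.1
      show 0 < p.1 + c
      linarith, hp.2⟩
  heat t ht x hx := by rw [dt_shift]; exact hu.heat (t + c) (by linarith) x hx
  h1 t ht := hu.h1 (t + c) (by linarith)
  dt_mem t ht := by
    refine (hu.dt_mem (t + c) (by linarith)).ae_eq (Eventually.of_forall fun z => ?_)
    exact (dt_shift c t z).symm
  neumann t ht w hx hy hw := by
    rw [← hu.neumann (t + c) (by linarith) w hx hy hw]
    refine integral_congr_ae (Eventually.of_forall fun z => ?_)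
    simp only
    rw [dt_shift]
  l2 t ht := by
    refine (hu.l2 (t + c) (by linarith)).congr fun e => ?_
    refine integral_congr_ae (Eventually.of_forall fun z => ?_)
    simp only
    rw [dt_shift, show t + c + e = t + e + c by ring]

/-! ### The evolution in `L²(Ω)` -/

open Classical in
/-- The class in `L²(Ω)`. -/
noncomputable def tl (Ω : Set ℂ) (f : ℂ → ℝ) : Lp ℝ 2 (volume.restrict Ω) :=
  if h : MemLp f 2 (volume.restrict Ω) then h.toLp f else 0

theorem tl_eq {f : ℂ → ℝ} (h : MemLp f 2 (volume.restrict Ω)) : tl Ω f = h.toLp f := dif_pos h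

theorem inner_tl {f g : ℂ → ℝ} (hf : MemLp f 2 (volume.restrict Ω))
    (hg : MemLp g 2 (volume.restrict Ω)) : inner ℝ (tl Ω f) (tl Ω g) = ∫ z in Ω, f z * g z := by
  rw [tl_eq hf, tl_eq hg, L2.inner_def]
  refine integral_congr_ae ?_
  filter_upwards [hf.coeFn_toLp, hg.coeFn_toLp] with z h1 h2
  rw [h1, h2]
  simp [mul_comm]

theorem norm_tl_sq {f : ℂ → ℝ} (hf : MemLp f 2 (volume.restrict Ω)) :
    ‖tl Ω f‖ ^ 2 = ∫ z in Ω, f z ^ 2 := by
  rw [← real_inner_self_eq_norm_sq, inner_tl hf hf]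
  simp only [sq]

theorem tl_sub {f g : ℂ → ℝ} (hf : MemLp f 2 (volume.restrict Ω))
    (hg : MemLp g 2 (volume.restrict Ω)) : tl Ω f - tl Ω g = tl Ω (fun z => f z - g z) := by
  have h : MemLp (fun z => f z - g z) 2 (volume.restrict Ω) := hf.sub hg
  rw [tl_eq hf, tl_eq hg, tl_eq h, ← MemLp.toLp_sub]
  rfl

theorem tl_smul {f : ℂ → ℝ} (hf : MemLp f 2 (volume.restrict Ω)) (c : ℝ) :
    c • tl Ω f = tl Ω (fun z => c * f z) := by
  have h : MemLp (fun z => c * f z) 2 (volume.restrict Ω) := hf.const_mul c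
  rw [tl_eq hf, tl_eq h, ← MemLp.toLp_const_smul]
  rfl

theorem flow (ho : IsOpen Ω) (hu : IsHeatFlow Ω u) :
    Flow (fun t => tl Ω (u t)) (fun t => tl Ω (dt u t)) where
  deriv t ht := by
    rw [hasDerivAt_iff_tendsto_slope_zero, tendsto_iff_norm_sub_tendsto_zero]
    have h := hu.l2 t ht
    have h2 : Tendsto (fun e => √(∫ z in Ω, ((u (t + e) z - u t z) / e - dt u t z) ^ 2)) (𝓝[≠] 0)
        (𝓝 0) := by
      have := h.sqrt
      rwa [Real.sqrt_zero] at this
    refine h2.congr' ?_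
    have h0 : ∀ᶠ e in 𝓝[≠] (0 : ℝ), 0 < t + e := by
      have : ∀ᶠ e in 𝓝 (0 : ℝ), 0 < t + e := by
        have hc : Tendsto (fun e : ℝ => t + e) (𝓝 0) (𝓝 (t + 0)) := by
          exact (continuous_const.add continuous_id).tendsto 0
        rw [add_zero] at hc
        exact hc.eventually (lt_mem_nhds ht)
      exact this.filter_mono nhdsWithin_le_nhds
    filter_upwards [h0] with e he
    have m1 := (hu.h1 (t + e) he).v_mem
    have m2 := (hu.h1 t ht).v_mem
    have m3 : MemLp (fun z => u (t + e) z - u t z) 2 (volume.restrict Ω) := m1.sub m2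
    have m4 : MemLp (fun z => e⁻¹ * (u (t + e) z - u t z)) 2 (volume.restrict Ω) := m3.const_mul _
    have m5 : MemLp (fun z => e⁻¹ * (u (t + e) z - u t z) - dt u t z) 2 (volume.restrict Ω) :=
      m4.sub (hu.dt_mem t ht)
    rw [tl_sub m1 m2, tl_smul m3, tl_sub m4 (hu.dt_mem t ht)]
    rw [Real.sqrt_eq_iff_mul_self_eq (integral_nonneg fun z => sq_nonneg _) (norm_nonneg _),
      ← sq, norm_tl_sq m5]
    refine integral_congr_ae (Eventually.of_forall fun z => ?_)
    simp only
    rw [div_eq_inv_mul]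
  symm a b ha hb := by
    rw [inner_tl (hu.dt_mem a ha) (hu.h1 b hb).v_mem, inner_tl (hu.h1 a ha).v_mem (hu.dt_mem b hb),
      hu.neumann a ha _ _ _ (hu.h1 b hb)]
    have h2 := hu.neumann b hb _ _ _ (hu.h1 a ha)
    have e1 : ∫ z in Ω, u a z * dt u b z = ∫ z in Ω, dt u b z * u a z := by
      refine integral_congr_ae (Eventually.of_forall fun z => ?_)
      simp only; ring
    rw [e1, h2]
    congr 1
    refine integral_congr_ae (Eventually.of_forall fun z => ?_)
    simp only; ring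
  diss1 t ht := by
    rw [inner_tl (hu.dt_mem t ht) (hu.h1 t ht).v_mem, hu.neumann t ht _ _ _ (hu.h1 t ht)]
    have : 0 ≤ ∫ z in Ω, (px (u t) z * px (u t) z + py (u t) z * py (u t) z) :=
      integral_nonneg fun z => add_nonneg (mul_self_nonneg _) (mul_self_nonneg _)
    linarith
  diss a b ha hb := by
    have m1 := (hu.h1 a ha)
    have m2 := (hu.h1 b hb)
    have n1 := hu.dt_mem a ha
    have n2 := hu.dt_mem b hb
    have m3 : IsH1 Ω (fun z => u a z - u b z) (fun z => px (u a) z - px (u b) z)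
        (fun z => py (u a) z - py (u b) z) := by
      have := NC.IsH1.lin m1 m2 1 (-1)
      simpa only [one_mul, neg_mul, ← sub_eq_add_neg] using this
    have n3 : MemLp (fun z => dt u a z - dt u b z) 2 (volume.restrict Ω) := n1.sub n2
    rw [tl_sub n1 n2, tl_sub m1.v_mem m2.v_mem, inner_tl n3 m3.v_mem]
    have i1 : Integrable (fun z => dt u a z * (u a z - u b z)) (volume.restrict Ω) :=
      n1.integrable_mul m3.v_mem
    have i2 : Integrable (fun z => dt u b z * (u a z - u b z)) (volume.restrict Ω) :=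
      n2.integrable_mul m3.v_mem
    have e1 : ∫ z in Ω, (dt u a z - dt u b z) * (u a z - u b z) =
        (∫ z in Ω, dt u a z * (u a z - u b z)) - ∫ z in Ω, dt u b z * (u a z - u b z) := by
      rw [← integral_sub i1 i2]
      refine integral_congr_ae (Eventually.of_forall fun z => ?_)
      simp only; ring
    have i3 : Integrable (fun z => px (u a) z * (px (u a) z - px (u b) z) +
        py (u a) z * (py (u a) z - py (u b) z)) (volume.restrict Ω) :=
      (m1.gx_mem.integrable_mul m3.gx_mem).add (m1.gy_mem.integrable_mul m3.gy_mem)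
    have i4 : Integrable (fun z => px (u b) z * (px (u a) z - px (u b) z) +
        py (u b) z * (py (u a) z - py (u b) z)) (volume.restrict Ω) :=
      (m2.gx_mem.integrable_mul m3.gx_mem).add (m2.gy_mem.integrable_mul m3.gy_mem)
    rw [e1, hu.neumann a ha _ _ _ m3, hu.neumann b hb _ _ _ m3, ← sub_nonneg]
    have e2 : 0 - (-(∫ z in Ω, (px (u a) z * (px (u a) z - px (u b) z) +
        py (u a) z * (py (u a) z - py (u b) z))) - -∫ z in Ω, (px (u b) z * (px (u a) z -
        px (u b) z) + py (u b) z * (py (u a) z - py (u b) z))) =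
        ∫ z in Ω, ((px (u a) z * (px (u a) z - px (u b) z) +
        py (u a) z * (py (u a) z - py (u b) z)) - (px (u b) z * (px (u a) z -
        px (u b) z) + py (u b) z * (py (u a) z - py (u b) z))) := by
      rw [integral_sub i3 i4]
      ring
    rw [e2]
    refine integral_nonneg fun z => ?_
    show 0 ≤ _
    nlinarith only [sq_nonneg (px (u a) z - px (u b) z), sq_nonneg (py (u a) z - py (u b) z)]

/-! ### The energy inequalities -/

theorem M_anti (ho : IsOpen Ω) (hu : IsHeatFlow Ω u) {s t : ℝ} (hs : 0 < s) (hst : s ≤ t) :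
    ∫ z in Ω, u t z ^ 2 ≤ ∫ z in Ω, u s z ^ 2 := by
  have h := (flow ho hu).norm_anti hs hst
  rw [← norm_tl_sq (hu.h1 s hs).v_mem, ← norm_tl_sq (hu.h1 t (hs.trans_le hst)).v_mem]
  exact pow_le_pow_left₀ (norm_nonneg _) h 2

theorem E_le (ho : IsOpen Ω) (hu : IsHeatFlow Ω u) {t : ℝ} (ht : 1 < t) :
    ∫ z in Ω, (px (u t) z ^ 2 + py (u t) z ^ 2) ≤ ∫ z in Ω, u (t - 1) z ^ 2 := by
  have h := ((flow ho hu).bounds ht).1
  have h0 : 0 < t := by linarith
  rw [inner_tl (hu.dt_mem t h0) (hu.h1 t h0).v_mem, hu.neumann t h0 _ _ _ (hu.h1 t h0), neg_neg,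
    norm_tl_sq (hu.h1 (t - 1) (by linarith)).v_mem] at h
  simpa only [sq] using h

theorem D_le (ho : IsOpen Ω) (hu : IsHeatFlow Ω u) {t : ℝ} (ht : 1 < t) :
    ∫ z in Ω, dt u t z ^ 2 ≤ ∫ z in Ω, u (t - 1) z ^ 2 := by
  have h := ((flow ho hu).bounds ht).2
  have h0 : 0 < t := by linarith
  rwa [norm_tl_sq (hu.dt_mem t h0), norm_tl_sq (hu.h1 (t - 1) (by linarith)).v_mem] at h

theorem hf_M_deriv (ho : IsOpen Ω) (hu : IsHeatFlow Ω u) {t : ℝ} (ht : 0 < t) :
    HasDerivAt (fun s => ∫ z in Ω, u s z ^ 2) (-2 * ∫ z in Ω, (px (u t) z ^ 2 + py (u t) z ^ 2))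
      t := by
  have h := (flow ho hu).norm_sq ht
  rw [inner_tl (hu.dt_mem t ht) (hu.h1 t ht).v_mem, hu.neumann t ht _ _ _ (hu.h1 t ht)] at h
  have e : 2 * -∫ z in Ω, (px (u t) z * px (u t) z + py (u t) z * py (u t) z) =
      -2 * ∫ z in Ω, (px (u t) z ^ 2 + py (u t) z ^ 2) := by
    simp only [sq]; ring
  rw [e] at h
  refine h.congr_of_eventuallyEq ?_
  filter_upwards [lt_mem_nhds ht] with s hs
  exact (norm_tl_sq (hu.h1 s hs).v_mem).symm

theorem hf_pair (ho : IsOpen Ω) (hu : IsHeatFlow Ω u) {t : ℝ} (ht : 0 < t) {φ : ℂ → ℝ}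
    (hφ : MemLp φ 2 (volume.restrict Ω)) :
    HasDerivAt (fun s => ∫ z in Ω, u s z * φ z) (∫ z in Ω, dt u t z * φ z) t := by
  have h := ((flow ho hu).deriv t ht).inner ℝ (hasDerivAt_const t (tl Ω φ))
  simp only [inner_zero_right, zero_add] at h
  rw [inner_tl (hu.dt_mem t ht) hφ] at h
  refine h.congr_of_eventuallyEq ?_
  filter_upwards [lt_mem_nhds ht] with s hs
  exact (inner_tl (hu.h1 s hs).v_mem hφ).symm

end Vale.Agent.P071.HF
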