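import Vale.Agent.P071.H334.Sel

set_option linter.all false

/-!
# Minimising sequences converge to elements of `V(Ω)`
-/

open MeasureTheory Metric Filter Topology Set
open scoped ContDiff ENNReal

namespace Vale.Agent.P071.HF

open Lim

variable {Ω : Set ℂ}

theorem tl_tendsto {f : ℕ → ℂ → ℝ} {g : ℂ → ℝ} (hf : ∀ n, MemLp (f n) 2 (volume.restrict Ω))
    (hg : MemLp g 2 (volume.restrict Ω))
    (h : Tendsto (fun n => ∫ z in Ω, (f n z - g z) ^ 2) atTop (𝓝 0)) :
    Tendsto (fun n => tl Ω (f n)) atTop (𝓝 (tl Ω g)) := by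
  rw [tendsto_iff_norm_sub_tendsto_zero]
  have h2 : Tendsto (fun n => √(∫ z in Ω, (f n z - g z) ^ 2)) atTop (𝓝 0) := by
    have := h.sqrt
    rwa [Real.sqrt_zero] at this
  refine h2.congr fun n => ?_
  have hm : MemLp (fun z => f n z - g z) 2 (volume.restrict Ω) := (hf n).sub hg
  rw [tl_sub (hf n) hg, Real.sqrt_eq_iff_mul_self_eq (integral_nonneg fun z => sq_nonneg _)
    (norm_nonneg _), ← sq, norm_tl_sq hm]

theorem tendsto_pair {f h : ℕ → ℂ → ℝ} {g k : ℂ → ℝ}
    (hf : ∀ n, MemLp (f n) 2 (volume.restrict Ω)) (hg : MemLp g 2 (volume.restrict Ω))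
    (hh : ∀ n, MemLp (h n) 2 (volume.restrict Ω)) (hk : MemLp k 2 (volume.restrict Ω))
    (h1 : Tendsto (fun n => ∫ z in Ω, (f n z - g z) ^ 2) atTop (𝓝 0))
    (h2 : Tendsto (fun n => ∫ z in Ω, (h n z - k z) ^ 2) atTop (𝓝 0)) :
    Tendsto (fun n => ∫ z in Ω, f n z * h n z) atTop (𝓝 (∫ z in Ω, g z * k z)) := by
  have h3 := (tl_tendsto hf hg h1).inner (𝕜 := ℝ) (tl_tendsto hh hk h2)
  rw [inner_tl hg hk] at h3
  exact h3.congr fun n => inner_tl (hf n) (hh n)

theorem l2_complete {f : ℕ → ℂ → ℝ} (hf : ∀ n, MemLp (f n) 2 (volume.restrict Ω))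
    (hc : ∀ ε : ℝ, 0 < ε → ∃ N, ∀ m ≥ N, ∀ n ≥ N, ∫ z in Ω, (f m z - f n z) ^ 2 ≤ ε) :
    ∃ g : ℂ → ℝ, MemLp g 2 (volume.restrict Ω) ∧
      Tendsto (fun n => ∫ z in Ω, (f n z - g z) ^ 2) atTop (𝓝 0) ∧
      ∃ ns : ℕ → ℕ, StrictMono ns ∧ ∀ᵐ x ∂(volume.restrict Ω),
        Tendsto (fun i => f (ns i) x) atTop (𝓝 (g x)) := by
  have hcau : CauchySeq (fun n => tl Ω (f n)) := by
    rw [Metric.cauchySeq_iff]
    intro ε hε
    obtain ⟨N, hN⟩ := hc (ε ^ 2 / 2) (by positivity)
    refine ⟨N, fun m hm n hn => ?_⟩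
    have hmn : MemLp (fun z => f m z - f n z) 2 (volume.restrict Ω) := (hf m).sub (hf n)
    rw [dist_eq_norm, tl_sub (hf m) (hf n)]
    refine lt_of_pow_lt_pow_left₀ 2 hε.le ?_
    rw [norm_tl_sq hmn]
    have := hN m hm n hn
    have h2 : 0 < ε ^ 2 := by positivity
    linarith
  obtain ⟨F, hF⟩ := cauchySeq_tendsto_of_complete hcau
  have hFm : MemLp (F : ℂ → ℝ) 2 (volume.restrict Ω) := Lp.memLp F
  have hFe : tl Ω (F : ℂ → ℝ) = F := by rw [tl_eq hFm, Lp.toLp_coeFn]
  refine ⟨F, hFm, ?_, ?_⟩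
  · have h1 := (tendsto_iff_norm_sub_tendsto_zero.1 hF).pow 2
    rw [zero_pow two_ne_zero] at h1
    refine h1.congr fun n => ?_
    have hm : MemLp (fun z => f n z - F z) 2 (volume.restrict Ω) := (hf n).sub hFm
    calc ‖tl Ω (f n) - F‖ ^ 2 = ‖tl Ω (f n) - tl Ω (F : ℂ → ℝ)‖ ^ 2 := by rw [hFe]
      _ = _ := by rw [tl_sub (hf n) hFm, norm_tl_sq hm]
  · obtain ⟨ns, hns, hae⟩ := (tendstoInMeasure_of_tendsto_Lp hF).exists_seq_tendsto_ae
    refine ⟨ns, hns, ?_⟩
    have h2 : ∀ᵐ x ∂(volume.restrict Ω), ∀ n, tl Ω (f n) x = f n x := by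
      rw [ae_all_iff]
      intro n
      rw [tl_eq (hf n)]
      exact (hf n).coeFn_toLp
    filter_upwards [hae, h2] with x hx hx2
    refine hx.congr fun i => ?_
    exact hx2 (ns i)

theorem isH1_one (ho : IsOpen Ω) (hb : Bornology.IsBounded Ω) :
    IsH1 Ω (fun _ => 1) (fun _ => 0) (fun _ => 0) := by
  have hfin : volume Ω < ⊤ := hb.measure_lt_top
  have hp : px (fun _ : ℂ => (1 : ℝ)) = fun _ => 0 := by funext z; simp [px]
  have hq : py (fun _ : ℂ => (1 : ℝ)) = fun _ => 0 := by funext z; simp [py]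
  have h := isH1_of_c1 ho (v := fun _ : ℂ => (1 : ℝ)) contDiffOn_const
    (integrableOn_const (by simpa using hfin.ne)) (by
      have : gsq (fun _ : ℂ => (1 : ℝ)) = fun _ => 0 := by
        funext z
        unfold gsq
        rw [hp, hq]
        simp
      rw [this]
      exact integrableOn_zero)
  rwa [hp, hq] at h

/-- The main selection theorem. -/
theorem limit_inV (ho : IsOpen Ω) (hb : Bornology.IsBounded Ω) (hT : Tight Ω)
    {v : ℕ → ℂ → ℝ} (hH : ∀ n, IsH1 Ω (v n) (px (v n)) (py (v n)))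
    (hs : ∀ n, ContDiffOn ℝ 1 (v n) Ω) (h0 : ∀ n, ∫ z in Ω, v n z = 0)
    (h1 : ∀ n, ∫ z in Ω, v n z ^ 2 = 1)
    (hE : Tendsto (fun n => ∫ z in Ω, (px (v n) z ^ 2 + py (v n) z ^ 2)) atTop (𝓝 (muOne Ω)))
    (hloc : ∀ K ⊆ Ω, IsCompact K → ∃ C : ℝ, ∀ n, ∀ x ∈ K, |v n x| ≤ C ∧ ‖fderiv ℝ (v n) x‖ ≤ C) :
    ∃ (ν : ℕ → ℕ) (w : ℂ → ℝ), StrictMono ν ∧ InV Ω w ∧ ContinuousOn w Ω ∧
      (∃ z ∈ Ω, w z ≠ 0) ∧
      Tendsto (fun n => ∫ z in Ω, (v (ν n) z - w z) ^ 2) atTop (𝓝 0) := by
  haveI hfm : IsFiniteMeasure (volume.restrict Ω) := ⟨by simpa using hb.measure_lt_top⟩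
  have hd : ∀ n, ∀ x ∈ Ω, DifferentiableAt ℝ (v n) x := fun n x hx =>
    ((hs n).differentiableOn (by norm_num)).differentiableAt (ho.mem_nhds hx)
  obtain ⟨ν, w, hν, hwc, hpt⟩ := extract_pt ho hloc hd
  set y : ℕ → ℂ → ℝ := fun n => v (ν n) with hy
  have yH : ∀ n, IsH1 Ω (y n) (px (y n)) (py (y n)) := fun n => hH (ν n)
  have yE : Tendsto (fun n => ∫ z in Ω, (px (y n) z ^ 2 + py (y n) z ^ 2)) atTop
      (𝓝 (muOne Ω)) := hE.comp hν.tendsto_atTop
  have y1 : ∀ n, ∫ z in Ω, y n z ^ 2 = 1 := fun n => h1 (ν n)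
  have y0 : ∀ n, ∫ z in Ω, y n z = 0 := fun n => h0 (ν n)
  have yc : ∀ n, ContinuousOn (y n) Ω := fun n => (hs (ν n)).continuousOn
  have yloc : ∀ K ⊆ Ω, IsCompact K → ∃ C : ℝ, ∀ n, ∀ x ∈ K, |y n x| ≤ C := fun K h2 h3 => by
    obtain ⟨C, hC⟩ := hloc K h2 h3
    exact ⟨C, fun n x hx => (hC (ν n) x hx).1⟩
  have hμ := muOne_nonneg Ω
  -- energies are bounded
  obtain ⟨B, hB⟩ := yE.bddAbove_range
  have hB' : ∀ n, ∫ z in Ω, (px (y n) z ^ 2 + py (y n) z ^ 2) ≤ B := fun n =>
    hB ⟨n, rfl⟩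
  have hB0 : 0 ≤ B := (integral_nonneg fun z => add_nonneg (sq_nonneg _) (sq_nonneg _)).trans (hB' 0)
  -- differences
  have dH : ∀ m n, IsH1 Ω (fun z => y m z - y n z) (fun z => px (y m) z - px (y n) z)
      (fun z => py (y m) z - py (y n) z) := fun m n => by
    have := NC.IsH1.lin (yH m) (yH n) 1 (-1)
    simpa only [one_mul, neg_mul, ← sub_eq_add_neg] using this
  have sH : ∀ m n, IsH1 Ω (fun z => y m z + y n z) (fun z => px (y m) z + px (y n) z)
      (fun z => py (y m) z + py (y n) z) := fun m n => by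
    have := NC.IsH1.lin (yH m) (yH n) 1 1
    simpa only [one_mul] using this
  have iE : ∀ n, Integrable (fun z => px (y n) z ^ 2 + py (y n) z ^ 2) (volume.restrict Ω) :=
    fun n => (yH n).gx_mem.integrable_sq.add (yH n).gy_mem.integrable_sq
  have iM : ∀ n, Integrable (fun z => y n z ^ 2) (volume.restrict Ω) := fun n =>
    (yH n).v_mem.integrable_sq
  have dM : ∀ m n, (∫ z in Ω, (y m z - y n z) ^ 2) + ∫ z in Ω, (y m z + y n z) ^ 2 = 4 := by
    intro m n
    rw [← integral_add (dH m n).v_mem.integrable_sq (sH m n).v_mem.integrable_sq]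
    have : ∫ z in Ω, ((y m z - y n z) ^ 2 + (y m z + y n z) ^ 2) =
        ∫ z in Ω, (2 * y m z ^ 2 + 2 * y n z ^ 2) := by
      refine integral_congr_ae (Eventually.of_forall fun z => ?_)
      simp only; ring
    rw [this, integral_add ((iM m).const_mul 2) ((iM n).const_mul 2), integral_const_mul,
      integral_const_mul, y1, y1]
    norm_num
  have dM4 : ∀ m n, ∫ z in Ω, (y m z - y n z) ^ 2 ≤ 4 := fun m n => by
    have h2 := dM m n
    have h3 : 0 ≤ ∫ z in Ω, (y m z + y n z) ^ 2 := integral_nonneg fun z => sq_nonneg _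
    linarith
  have dE : ∀ m n, (∫ z in Ω, ((px (y m) z - px (y n) z) ^ 2 + (py (y m) z - py (y n) z) ^ 2)) +
      ∫ z in Ω, ((px (y m) z + px (y n) z) ^ 2 + (py (y m) z + py (y n) z) ^ 2) =
      2 * (∫ z in Ω, (px (y m) z ^ 2 + py (y m) z ^ 2)) +
        2 * ∫ z in Ω, (px (y n) z ^ 2 + py (y n) z ^ 2) := by
    intro m n
    have j1 : Integrable (fun z => (px (y m) z - px (y n) z) ^ 2 +
        (py (y m) z - py (y n) z) ^ 2) (volume.restrict Ω) :=
      (dH m n).gx_mem.integrable_sq.add (dH m n).gy_mem.integrable_sq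
    have j2 : Integrable (fun z => (px (y m) z + px (y n) z) ^ 2 +
        (py (y m) z + py (y n) z) ^ 2) (volume.restrict Ω) :=
      (sH m n).gx_mem.integrable_sq.add (sH m n).gy_mem.integrable_sq
    rw [← integral_add j1 j2, ← integral_const_mul, ← integral_const_mul,
      ← integral_add ((iE m).const_mul 2) ((iE n).const_mul 2)]
    refine integral_congr_ae (Eventually.of_forall fun z => ?_)
    simp only; ring
  have dEle : ∀ m n,
      ∫ z in Ω, ((px (y m) z - px (y n) z) ^ 2 + (py (y m) z - py (y n) z) ^ 2) ≤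
      2 * ((∫ z in Ω, (px (y m) z ^ 2 + py (y m) z ^ 2)) - muOne Ω) +
      2 * ((∫ z in Ω, (px (y n) z ^ 2 + py (y n) z ^ 2)) - muOne Ω) +
      muOne Ω * ∫ z in Ω, (y m z - y n z) ^ 2 := by
    intro m n
    have h2 := dE m n
    have i1 : ∀ n, Integrable (y n) (volume.restrict Ω) := fun n =>
      (yH n).v_mem.integrable one_le_two
    have h3 : ∫ z in Ω, (y m z + y n z) = 0 := by
      rw [integral_add (i1 m) (i1 n), y0, y0, add_zero]
    have h4 := mu_le (sH m n) h3
    have h5 := dM m n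
    have h6 : ∫ z in Ω, (y m z + y n z) ^ 2 = 4 - ∫ z in Ω, (y m z - y n z) ^ 2 := by linarith
    rw [h6] at h4
    nlinarith
  -- `L²` Cauchy
  have hcomp := fun (K : Set ℂ) (hK : IsCompact K) (hKO : K ⊆ Ω) =>
    tendsto_int_compact ho yloc yc hwc hpt hK hKO
  have cM : ∀ ε : ℝ, 0 < ε → ∃ N, ∀ m ≥ N, ∀ n ≥ N, ∫ z in Ω, (y m z - y n z) ^ 2 ≤ ε := by
    intro ε hε
    obtain ⟨K, hK, hKO, hKT⟩ := hT (ε / (2 * (4 + 4 * B + 1))) (by positivity)
    obtain ⟨N, hN⟩ := Metric.tendsto_atTop.1 (hcomp K hK hKO) (ε / 8) (by positivity)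
    refine ⟨N, fun m hm n hn => ?_⟩
    have dc : ContDiffOn ℝ 1 (fun z => y m z - y n z) Ω := (hs _).sub (hs _)
    have hg : ∀ z ∈ Ω, gsq (fun z => y m z - y n z) z =
        (px (y m) z - px (y n) z) ^ 2 + (py (y m) z - py (y n) z) ^ 2 := fun z hz => by
      have e1 := px_lin 1 (-1) (hd (ν m) z hz) (hd (ν n) z hz)
      have e2 := py_lin 1 (-1) (hd (ν m) z hz) (hd (ν n) z hz)
      simp only [one_mul, neg_mul, ← sub_eq_add_neg] at e1 e2
      unfold gsq
      rw [e1, e2]
    have j1 : IntegrableOn (fun z => (px (y m) z - px (y n) z) ^ 2 +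
        (py (y m) z - py (y n) z) ^ 2) Ω :=
      (dH m n).gx_mem.integrable_sq.add (dH m n).gy_mem.integrable_sq
    have ig : IntegrableOn (gsq (fun z => y m z - y n z)) Ω :=
      j1.congr_fun (fun z hz => (hg z hz).symm) ho.measurableSet
    have im : IntegrableOn (fun z => (y m z - y n z) ^ 2) Ω := (dH m n).v_mem.integrable_sq
    have h2 := hKT _ dc im ig
    have h3 := integral_inter_add_sdiff hK.measurableSet im
    rw [Set.inter_eq_self_of_subset_right hKO] at h3
    have h4 : ∫ z in Ω, ((y m z - y n z) ^ 2 + gsq (fun z => y m z - y n z) z) ≤ 4 + 4 * B := by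
      rw [integral_add im ig]
      have h5 : ∫ z in Ω, gsq (fun z => y m z - y n z) z =
          ∫ z in Ω, ((px (y m) z - px (y n) z) ^ 2 + (py (y m) z - py (y n) z) ^ 2) :=
        setIntegral_congr_fun ho.measurableSet hg
      have h6 := dE m n
      have h7 : 0 ≤ ∫ z in Ω, ((px (y m) z + px (y n) z) ^ 2 + (py (y m) z + py (y n) z) ^ 2) :=
        integral_nonneg fun z => add_nonneg (sq_nonneg _) (sq_nonneg _)
      have h8 := dM4 m n
      have h9 := hB' m
      have h10 := hB' n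
      linarith
    have h5 : ∫ z in Ω \ K, (y m z - y n z) ^ 2 ≤ ε / 2 := by
      refine h2.trans ((mul_le_mul_of_nonneg_left h4 (by positivity)).trans ?_)
      rw [div_mul_eq_mul_div, div_le_iff₀ (by positivity)]
      nlinarith
    have wK : MemLp w 2 (volume.restrict K) := by
      have hcK : ContinuousOn w K := hwc.mono hKO
      rw [memLp_two_iff_integrable_sq (hcK.aestronglyMeasurable hK.measurableSet)]
      exact (hcK.pow 2).integrableOn_compact hK
    have yK : ∀ n, MemLp (y n) 2 (volume.restrict K) := fun n =>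
      (yH n).v_mem.mono_measure (Measure.restrict_mono hKO le_rfl)
    have h6 := int_sq_sub_le (yK m) (yK n) wK
    have h7 := hN m hm
    have h8 := hN n hn
    rw [Real.dist_eq, sub_zero, abs_lt] at h7 h8
    linarith [h7.2, h8.2]
  have cE : ∀ ε : ℝ, 0 < ε → ∃ N, ∀ m ≥ N, ∀ n ≥ N,
      ∫ z in Ω, ((px (y m) z - px (y n) z) ^ 2 + (py (y m) z - py (y n) z) ^ 2) ≤ ε := by
    intro ε hε
    obtain ⟨N1, hN1⟩ := Metric.tendsto_atTop.1 yE (ε / 8) (by positivity)
    obtain ⟨N2, hN2⟩ := cM (ε / (2 * (muOne Ω + 1))) (by positivity)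
    refine ⟨max N1 N2, fun m hm n hn => (dEle m n).trans ?_⟩
    have h2 := hN1 m ((le_max_left _ _).trans hm)
    have h3 := hN1 n ((le_max_left _ _).trans hn)
    have h4 := hN2 m ((le_max_right _ _).trans hm) n ((le_max_right _ _).trans hn)
    rw [Real.dist_eq, abs_lt] at h2 h3
    have h5 : muOne Ω * (∫ z in Ω, (y m z - y n z) ^ 2) ≤ ε / 2 := by
      calc muOne Ω * (∫ z in Ω, (y m z - y n z) ^ 2)
          ≤ (muOne Ω + 1) * (ε / (2 * (muOne Ω + 1))) :=
            mul_le_mul (by linarith) h4 (integral_nonneg fun z => sq_nonneg _) (by linarith)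
        _ = ε / 2 := by field_simp
    linarith [h2.2, h3.2]
  have cX : ∀ ε : ℝ, 0 < ε → ∃ N, ∀ m ≥ N, ∀ n ≥ N,
      ∫ z in Ω, (px (y m) z - px (y n) z) ^ 2 ≤ ε := by
    intro ε hε
    obtain ⟨N, hN⟩ := cE ε hε
    refine ⟨N, fun m hm n hn => le_trans ?_ (hN m hm n hn)⟩
    refine integral_mono (dH m n).gx_mem.integrable_sq
      ((dH m n).gx_mem.integrable_sq.add (dH m n).gy_mem.integrable_sq) fun z => ?_
    exact le_add_of_nonneg_right (sq_nonneg _)
  have cY : ∀ ε : ℝ, 0 < ε → ∃ N, ∀ m ≥ N, ∀ n ≥ N,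
      ∫ z in Ω, (py (y m) z - py (y n) z) ^ 2 ≤ ε := by
    intro ε hε
    obtain ⟨N, hN⟩ := cE ε hε
    refine ⟨N, fun m hm n hn => le_trans ?_ (hN m hm n hn)⟩
    refine integral_mono (dH m n).gy_mem.integrable_sq
      ((dH m n).gx_mem.integrable_sq.add (dH m n).gy_mem.integrable_sq) fun z => ?_
    exact le_add_of_nonneg_left (sq_nonneg _)
  obtain ⟨g0, hg0, lg0, ns, hns, hae⟩ := l2_complete (fun n => (yH n).v_mem) cM
  obtain ⟨gx, hgx, lgx, -⟩ := l2_complete (fun n => (yH n).gx_mem) cX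
  obtain ⟨gy, hgy, lgy, -⟩ := l2_complete (fun n => (yH n).gy_mem) cY
  have hgw : ∀ᵐ z ∂(volume.restrict Ω), g0 z = w z := by
    filter_upwards [hae, ae_restrict_mem ho.measurableSet] with z hz hzΩ
    exact tendsto_nhds_unique hz ((hpt z hzΩ).comp hns.tendsto_atTop)
  have hw2 : MemLp w 2 (volume.restrict Ω) := hg0.ae_eq hgw
  have lw : Tendsto (fun n => ∫ z in Ω, (y n z - w z) ^ 2) atTop (𝓝 0) := by
    refine lg0.congr fun n => integral_congr_ae (hgw.mono fun z hz => ?_)
    simp only [hz]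
  have lcon : ∀ φ : ℂ → ℝ, Tendsto (fun n : ℕ => ∫ z in Ω, (φ z - φ z) ^ 2) atTop (𝓝 0) := by
    intro φ
    simp
  have hwH : IsH1 Ω w gx gy := by
    refine ⟨hw2, hgx, hgy, fun φ a1 a2 a3 => ?_, fun φ a1 a2 a3 => ?_⟩
    · have mφ := (tgt_isH1_test ho a1 a2)
      have l1 := tendsto_pair (fun n => (yH n).v_mem) hw2 (fun _ => mφ.gx_mem) mφ.gx_mem lw (lcon _)
      have l2 := tendsto_pair (fun n => (yH n).gx_mem) hgx (fun _ => mφ.v_mem) mφ.v_mem lgx
        (lcon _)
      refine tendsto_nhds_unique l1 (l2.neg.congr fun n => ?_)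
      exact ((yH n).weak_x φ a1 a2 a3).symm
    · have mφ := (tgt_isH1_test ho a1 a2)
      have l1 := tendsto_pair (fun n => (yH n).v_mem) hw2 (fun _ => mφ.gy_mem) mφ.gy_mem lw (lcon _)
      have l2 := tendsto_pair (fun n => (yH n).gy_mem) hgy (fun _ => mφ.v_mem) mφ.v_mem lgy
        (lcon _)
      refine tendsto_nhds_unique l1 (l2.neg.congr fun n => ?_)
      exact ((yH n).weak_y φ a1 a2 a3).symm
  have h1H := isH1_one ho hb
  have hw0 : ∫ z in Ω, w z = 0 := by
    have l1 := tendsto_pair (fun n => (yH n).v_mem) hw2 (fun _ => h1H.v_mem) h1H.v_mem lw (lcon _)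
    simp only [mul_one] at l1
    refine tendsto_nhds_unique l1 (tendsto_const_nhds.congr fun n => (y0 n).symm)
  have hw1 : ∫ z in Ω, w z ^ 2 = 1 := by
    have l1 := tendsto_pair (fun n => (yH n).v_mem) hw2 (fun n => (yH n).v_mem) hw2 lw lw
    simp only [← sq] at l1
    exact tendsto_nhds_unique l1 (tendsto_const_nhds.congr fun n => (y1 n).symm)
  refine ⟨ν, w, hν, ⟨gx, gy, hwH, ?_⟩, hwc, ?_, lw⟩
  · -- Euler-Lagrange, first for mean zero
    have key : ∀ φ hx hy : ℂ → ℝ, IsH1 Ω φ hx hy → ∫ z in Ω, φ z = 0 →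
        ∫ z in Ω, (gx z * hx z + gy z * hy z) = muOne Ω * ∫ z in Ω, w z * φ z := by
      intro φ hx hy hφ hφ0
      set P := ∫ z in Ω, w z * φ z with hP
      set D := ∫ z in Ω, (gx z * hx z + gy z * hy z) with hD
      set Φ := ∫ z in Ω, φ z ^ 2 with hΦ
      set EE := ∫ z in Ω, (hx z ^ 2 + hy z ^ 2) with hEE
      have lP := tendsto_pair (fun n => (yH n).v_mem) hw2 (fun _ => hφ.v_mem) hφ.v_mem lw (lcon _)
      have lD : Tendsto (fun n => ∫ z in Ω, (px (y n) z * hx z + py (y n) z * hy z)) atTop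
          (𝓝 D) := by
        have l1 := tendsto_pair (fun n => (yH n).gx_mem) hgx (fun _ => hφ.gx_mem) hφ.gx_mem lgx
          (lcon _)
        have l2 := tendsto_pair (fun n => (yH n).gy_mem) hgy (fun _ => hφ.gy_mem) hφ.gy_mem lgy
          (lcon _)
        have l3 := l1.add l2
        have e1 : D = (∫ z in Ω, gx z * hx z) + ∫ z in Ω, gy z * hy z :=
          integral_add (hgx.integrable_mul hφ.gx_mem) (hgy.integrable_mul hφ.gy_mem)
        rw [e1]
        refine l3.congr fun n => ?_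
        exact (integral_add ((yH n).gx_mem.integrable_mul hφ.gx_mem)
          ((yH n).gy_mem.integrable_mul hφ.gy_mem)).symm
      have hineq : ∀ s : ℝ, muOne Ω * (1 + 2 * s * P + s ^ 2 * Φ) ≤
          muOne Ω + 2 * s * D + s ^ 2 * EE := by
        intro s
        have lL : Tendsto (fun n => muOne Ω * (1 + 2 * s * (∫ z in Ω, y n z * φ z) + s ^ 2 * Φ))
            atTop (𝓝 (muOne Ω * (1 + 2 * s * P + s ^ 2 * Φ))) :=
          (((lP.const_mul (2 * s)).const_add 1).add_const _).const_mul _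
        have lR : Tendsto (fun n => (∫ z in Ω, (px (y n) z ^ 2 + py (y n) z ^ 2)) +
            2 * s * (∫ z in Ω, (px (y n) z * hx z + py (y n) z * hy z)) + s ^ 2 * EE)
            atTop (𝓝 (muOne Ω + 2 * s * D + s ^ 2 * EE)) :=
          (yE.add (lD.const_mul (2 * s))).add_const _
        refine le_of_tendsto_of_tendsto' lL lR fun n => ?_
        have hl := NC.IsH1.lin (yH n) hφ 1 s
        simp only [one_mul] at hl
        have i1 : Integrable (y n) (volume.restrict Ω) := (yH n).v_mem.integrable one_le_two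
        have i2 : Integrable φ (volume.restrict Ω) := hφ.v_mem.integrable one_le_two
        have h3 : ∫ z in Ω, (y n z + s * φ z) = 0 := by
          rw [integral_add i1 (i2.const_mul s), integral_const_mul, y0, hφ0]
          ring
        have h4 := mu_le hl h3
        have i3 : Integrable (fun z => y n z ^ 2) (volume.restrict Ω) := iM n
        have i4 : Integrable (fun z => y n z * φ z) (volume.restrict Ω) :=
          (yH n).v_mem.integrable_mul hφ.v_mem
        have i5 : Integrable (fun z => φ z ^ 2) (volume.restrict Ω) := hφ.v_mem.integrable_sq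
        have e1 : ∫ z in Ω, (y n z + s * φ z) ^ 2 =
            1 + 2 * s * (∫ z in Ω, y n z * φ z) + s ^ 2 * Φ := by
          rw [← y1 n, hΦ, ← integral_const_mul, ← integral_const_mul,
            ← integral_add i3 (i4.const_mul _), ← integral_add _ (i5.const_mul _)]
          · refine integral_congr_ae (Eventually.of_forall fun z => ?_)
            simp only; ring
          · exact i3.add (i4.const_mul _)
        have i6 : Integrable (fun z => px (y n) z * hx z + py (y n) z * hy z)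
            (volume.restrict Ω) := ((yH n).gx_mem.integrable_mul hφ.gx_mem).add
          ((yH n).gy_mem.integrable_mul hφ.gy_mem)
        have i7 : Integrable (fun z => hx z ^ 2 + hy z ^ 2) (volume.restrict Ω) :=
          hφ.gx_mem.integrable_sq.add hφ.gy_mem.integrable_sq
        have e2 : ∫ z in Ω, ((px (y n) z + s * hx z) ^ 2 + (py (y n) z + s * hy z) ^ 2) =
            (∫ z in Ω, (px (y n) z ^ 2 + py (y n) z ^ 2)) +
            2 * s * (∫ z in Ω, (px (y n) z * hx z + py (y n) z * hy z)) + s ^ 2 * EE := by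
          rw [hEE, ← integral_const_mul, ← integral_const_mul,
            ← integral_add (iE n) (i6.const_mul _), ← integral_add _ (i7.const_mul _)]
          · refine integral_congr_ae (Eventually.of_forall fun z => ?_)
            simp only; ring
          · exact (iE n).add (i6.const_mul _)
        rwa [e1, e2] at h4
      -- linear term vanishes
      set b := muOne Ω * P - D with hbdef
      set c := EE - muOne Ω * Φ with hcdef
      have hc0 : 0 ≤ c := by
        have := mu_le hφ hφ0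
        rw [hcdef]
        linarith
      have hbs : ∀ s : ℝ, 2 * s * b ≤ s ^ 2 * c := by
        intro s
        have := hineq s
        rw [hbdef, hcdef]
        nlinarith
      have h5 := hbs (b / (c + 1))
      have h6 : 0 < c + 1 := by linarith
      have h7 : 2 * (b / (c + 1)) * b = 2 * (b ^ 2 / (c + 1)) := by ring
      have h8 : (b / (c + 1)) ^ 2 * c = b ^ 2 / (c + 1) * (c / (c + 1)) := by
        field_simp
      rw [h7, h8] at h5
      have h9 : c / (c + 1) ≤ 1 := (div_le_one h6).2 (by linarith)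
      have h10 : 0 ≤ b ^ 2 / (c + 1) := by positivity
      have h11 : b ^ 2 / (c + 1) * (c / (c + 1)) ≤ b ^ 2 / (c + 1) :=
        mul_le_of_le_one_right h10 h9
      have h12 : b ^ 2 / (c + 1) = 0 := le_antisymm (by linarith) h10
      have h13 : b = 0 := by
        rcases div_eq_zero_iff.1 h12 with h | h
        · exact pow_eq_zero_iff two_ne_zero |>.1 h
        · exact absurd h h6.ne'
      rw [hbdef] at h13
      linarith
    intro φ hx hy hφ
    -- subtract the mean
    rcases eq_or_ne (volume.real Ω) 0 with hv | hv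
    · exfalso
      have : volume Ω = 0 := by
        rcases (measureReal_eq_zero_iff hb.measure_lt_top.ne).1 hv with h
        exact h
      rw [setIntegral_measure_zero _ this] at hw1
      exact zero_ne_one hw1
    · set m := (∫ z in Ω, φ z) / volume.real Ω with hm
      have hl := NC.IsH1.lin hφ h1H 1 (-m)
      simp only [one_mul, mul_one, mul_zero, add_zero] at hl
      have i2 : Integrable φ (volume.restrict Ω) := hφ.v_mem.integrable one_le_two
      have h3 : ∫ z in Ω, (φ z + -m) = 0 := by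
        rw [integral_add i2 (integrable_const _)]
        simp only [integral_const, MeasurableSet.univ, measureReal_restrict_apply, Set.univ_inter,
          smul_eq_mul]
        rw [hm]
        field_simp
        ring
      rw [key _ _ _ hl h3]
      congr 1
      have i3 : Integrable (fun z => w z * φ z) (volume.restrict Ω) :=
        hw2.integrable_mul hφ.v_mem
      have i4 : Integrable w (volume.restrict Ω) := hw2.integrable one_le_two
      have e1 : ∫ z in Ω, w z * (φ z + -m) = (∫ z in Ω, w z * φ z) + (-m) * ∫ z in Ω, w z := by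
        rw [← integral_const_mul, ← integral_add i3 (i4.const_mul _)]
        refine integral_congr_ae (Eventually.of_forall fun z => ?_)
        simp only; ring
      rw [e1, hw0, mul_zero, add_zero]
  · by_contra hcon
    push Not at hcon
    have : ∫ z in Ω, w z ^ 2 = 0 :=
      setIntegral_eq_zero_of_forall_eq_zero fun z hz => by rw [hcon z hz]; ring
    rw [hw1] at this
    exact one_ne_zero this

end Vale.Agent.P071.HF
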