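import Vale.Agent.P071.H334.Est

set_option linter.all false

/-!
# Selection of a limit eigenfunction
-/

open MeasureTheory Metric Filter Topology Set
open scoped ContDiff ENNReal

namespace Vale.Agent.P071.HF

open Lim

variable {Ω : Set ℂ}

/-! ### The variational characterisation -/

theorem mu_le {f gx gy : ℂ → ℝ} (hf : IsH1 Ω f gx gy) (h0 : ∫ z in Ω, f z = 0) :
    muOne Ω * (∫ z in Ω, f z ^ 2) ≤ ∫ z in Ω, (gx z ^ 2 + gy z ^ 2) := by
  have hE : 0 ≤ ∫ z in Ω, (gx z ^ 2 + gy z ^ 2) :=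
    integral_nonneg fun z => add_nonneg (sq_nonneg _) (sq_nonneg _)
  have hM : 0 ≤ ∫ z in Ω, f z ^ 2 := integral_nonneg fun z => sq_nonneg _
  rcases hM.eq_or_lt with h | h
  · rw [← h, mul_zero]; exact hE
  · have hle : muOne Ω ≤ (∫ z in Ω, (gx z ^ 2 + gy z ^ 2)) / ∫ z in Ω, f z ^ 2 := by
      refine csInf_le ⟨0, ?_⟩ ⟨f, gx, gy, hf, h0, h, rfl⟩
      rintro q ⟨v, hx, hy, hv, hv0, hvp, rfl⟩
      exact div_nonneg (integral_nonneg fun z => add_nonneg (sq_nonneg _) (sq_nonneg _)) hvp.le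
    rwa [le_div_iff₀ h] at hle

theorem muOne_nonneg (Ω : Set ℂ) : 0 ≤ muOne Ω := by
  refine Real.sInf_nonneg ?_
  rintro q ⟨v, hx, hy, hv, hv0, hvp, rfl⟩
  exact div_nonneg (integral_nonneg fun z => add_nonneg (sq_nonneg _) (sq_nonneg _)) hvp.le

/-! ### Pointwise extraction -/

theorem extract_pt (ho : IsOpen Ω) {v : ℕ → ℂ → ℝ}
    (hb : ∀ K ⊆ Ω, IsCompact K → ∃ C : ℝ, ∀ n, ∀ x ∈ K, |v n x| ≤ C ∧ ‖fderiv ℝ (v n) x‖ ≤ C)
    (hd : ∀ n, ∀ x ∈ Ω, DifferentiableAt ℝ (v n) x) :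
    ∃ (ν : ℕ → ℕ) (w : ℂ → ℝ), StrictMono ν ∧ ContinuousOn w Ω ∧
      ∀ x ∈ Ω, Tendsto (fun n => v (ν n) x) atTop (𝓝 (w x)) := by
  classical
  let q : ℕ → ℂ := TopologicalSpace.denseSeq ℂ
  have hq : DenseRange q := TopologicalSpace.denseRange_denseSeq ℂ
  let V : ℕ → ℕ → ℝ := fun n k => if q k ∈ Ω then v n (q k) else 0
  have hB : ∀ k, ∃ B : ℝ, ∀ n, |V n k| ≤ B := by
    intro k
    by_cases hk : q k ∈ Ω
    · obtain ⟨C, hC⟩ := hb {q k} (by simpa using hk) isCompact_singleton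
      refine ⟨C, fun n => ?_⟩
      have : V n k = v n (q k) := if_pos hk
      rw [this]
      exact (hC n _ rfl).1
    · refine ⟨0, fun n => ?_⟩
      have : V n k = 0 := if_neg hk
      simp [this]
  choose B hB' using hB
  have hc : IsCompact (Set.pi Set.univ fun k => Set.Icc (-B k) (B k)) :=
    isCompact_univ_pi fun k => isCompact_Icc
  obtain ⟨V₀, -, ν, hν, hlim⟩ := hc.tendsto_subseq (x := V) (fun n k _ => abs_le.1 (hB' k n))
  have hlim' : ∀ k, Tendsto (fun n => V (ν n) k) atTop (𝓝 (V₀ k)) := fun k =>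
    ((continuous_apply k).tendsto V₀).comp hlim
  -- local Lipschitz bounds
  have hloc : ∀ x ∈ Ω, ∃ r L : ℝ, 0 < r ∧ 0 ≤ L ∧ closedBall x r ⊆ Ω ∧ ∀ n, ∀ y ∈ closedBall x r,
      ∀ z ∈ closedBall x r, |v n y - v n z| ≤ L * ‖y - z‖ := by
    intro x hx
    obtain ⟨r, hr, hrs⟩ := Metric.nhds_basis_closedBall.mem_iff.1 (ho.mem_nhds hx)
    obtain ⟨C, hC⟩ := hb _ hrs (isCompact_closedBall x r)
    refine ⟨r, max C 0, hr, le_max_right _ _, hrs, fun n y hy z hz => ?_⟩
    have := (convex_closedBall x r).norm_image_sub_le_of_norm_fderiv_le (𝕜 := ℝ) (f := v n)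
      (C := max C 0) (fun a ha => hd n a (hrs ha))
      (fun a ha => ((hC n a ha).2).trans (le_max_left _ _)) hz hy
    rwa [Real.norm_eq_abs] at this
  have hcau : ∀ x ∈ Ω, CauchySeq (fun n => v (ν n) x) := by
    intro x hx
    obtain ⟨r, L, hr, hL, hrs, hlip⟩ := hloc x hx
    rw [Metric.cauchySeq_iff]
    intro ε hε
    have hδ : 0 < min r (ε / (4 * (L + 1))) := lt_min hr (by positivity)
    obtain ⟨k, hk⟩ := hq.exists_dist_lt x hδ
    have hkb : q k ∈ closedBall x r := by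
      rw [mem_closedBall, dist_comm]
      exact (hk.trans_le (min_le_left _ _)).le
    have hkΩ : q k ∈ Ω := hrs hkb
    have hk2 : L * ‖x - q k‖ ≤ ε / 4 := by
      have h1 : ‖x - q k‖ ≤ ε / (4 * (L + 1)) := by
        rw [← dist_eq_norm]
        exact (hk.trans_le (min_le_right _ _)).le
      calc L * ‖x - q k‖ ≤ (L + 1) * (ε / (4 * (L + 1))) :=
            mul_le_mul (by linarith) h1 (norm_nonneg _) (by linarith)
        _ = ε / 4 := by field_simp
    have hVk : ∀ n, V n k = v n (q k) := fun n => if_pos hkΩ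
    obtain ⟨N, hN⟩ := Metric.cauchySeq_iff.1 (hlim' k).cauchySeq (ε / 4) (by positivity)
    refine ⟨N, fun m hm n hn => ?_⟩
    have h1 := hN m hm n hn
    simp only [hVk, Real.dist_eq] at h1
    have h2 := hlip (ν m) x (mem_closedBall_self hr.le) (q k) hkb
    have h3 := hlip (ν n) x (mem_closedBall_self hr.le) (q k) hkb
    rw [Real.dist_eq]
    have e : v (ν m) x - v (ν n) x = (v (ν m) x - v (ν m) (q k)) +
        (v (ν m) (q k) - v (ν n) (q k)) - (v (ν n) x - v (ν n) (q k)) := by ring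
    rw [e]
    have h4 := abs_sub ((v (ν m) x - v (ν m) (q k)) + (v (ν m) (q k) - v (ν n) (q k)))
      (v (ν n) x - v (ν n) (q k))
    have h5 := abs_add_le (v (ν m) x - v (ν m) (q k)) (v (ν m) (q k) - v (ν n) (q k))
    linarith
  have hex : ∀ x, ∃ y : ℝ, x ∈ Ω → Tendsto (fun n => v (ν n) x) atTop (𝓝 y) := by
    intro x
    by_cases hx : x ∈ Ω
    · obtain ⟨y, hy⟩ := cauchySeq_tendsto_of_complete (hcau x hx)
      exact ⟨y, fun _ => hy⟩
    · exact ⟨0, fun h => absurd h hx⟩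
  choose w hw using hex
  refine ⟨ν, w, hν, fun x hx => ?_, hw⟩
  obtain ⟨r, L, hr, hL, hrs, hlip⟩ := hloc x hx
  refine ContinuousAt.continuousWithinAt ?_
  rw [Metric.continuousAt_iff]
  intro ε hε
  refine ⟨min r (ε / (2 * (L + 1))), lt_min hr (by positivity), fun y hy => ?_⟩
  have hyr : y ∈ closedBall x r := (hy.trans_le (min_le_left _ _)).le
  have h1 : |w y - w x| ≤ L * ‖y - x‖ := by
    have hl : Tendsto (fun n => |v (ν n) y - v (ν n) x|) atTop (𝓝 |w y - w x|) :=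
      ((hw y (hrs hyr)).sub (hw x hx)).abs
    exact le_of_tendsto hl (Eventually.of_forall fun n => hlip (ν n) y hyr x
      (mem_closedBall_self hr.le))
  rw [Real.dist_eq]
  have h2 : ‖y - x‖ < ε / (2 * (L + 1)) := by
    rw [← dist_eq_norm]; exact hy.trans_le (min_le_right _ _)
  calc |w y - w x| ≤ L * ‖y - x‖ := h1
    _ ≤ (L + 1) * (ε / (2 * (L + 1))) :=
        mul_le_mul (by linarith) h2.le (norm_nonneg _) (by linarith)
    _ = ε / 2 := by field_simp
    _ < ε := half_lt_self hε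

/-! ### `L²` facts -/

theorem int_sq_sub_le {f g h : ℂ → ℝ} {S : Set ℂ} (hf : MemLp f 2 (volume.restrict S))
    (hg : MemLp g 2 (volume.restrict S)) (hh : MemLp h 2 (volume.restrict S)) :
    ∫ z in S, (f z - g z) ^ 2 ≤ 2 * (∫ z in S, (f z - h z) ^ 2) + 2 * ∫ z in S, (g z - h z) ^ 2 := by
  have i1 : Integrable (fun z => 2 * (f z - h z) ^ 2) (volume.restrict S) :=
    ((hf.sub hh).integrable_sq).const_mul 2
  have i2 : Integrable (fun z => 2 * (g z - h z) ^ 2) (volume.restrict S) :=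
    ((hg.sub hh).integrable_sq).const_mul 2
  rw [← integral_const_mul, ← integral_const_mul, ← integral_add i1 i2]
  refine integral_mono ((hf.sub hg).integrable_sq) (i1.add i2) fun z => ?_
  show (f z - g z) ^ 2 ≤ 2 * (f z - h z) ^ 2 + 2 * (g z - h z) ^ 2
  nlinarith only [sq_nonneg (f z - h z + (g z - h z))]

/-- On a compact set, bounded pointwise convergent sequences converge in `L²`. -/
theorem tendsto_int_compact (ho : IsOpen Ω) {v : ℕ → ℂ → ℝ} {w : ℂ → ℝ}
    (hb : ∀ K ⊆ Ω, IsCompact K → ∃ C : ℝ, ∀ n, ∀ x ∈ K, |v n x| ≤ C)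
    (hc : ∀ n, ContinuousOn (v n) Ω) (hcw : ContinuousOn w Ω)
    (hl : ∀ x ∈ Ω, Tendsto (fun n => v n x) atTop (𝓝 (w x))) {K : Set ℂ} (hK : IsCompact K)
    (hKO : K ⊆ Ω) : Tendsto (fun n => ∫ z in K, (v n z - w z) ^ 2) atTop (𝓝 0) := by
  obtain ⟨C, hC⟩ := hb K hKO hK
  have hwC : ∀ x ∈ K, |w x| ≤ C := fun x hx =>
    le_of_tendsto (hl x (hKO hx)).abs (Eventually.of_forall fun n => hC n x hx)
  have h1 : Tendsto (fun n => ∫ z in K, (v n z - w z) ^ 2) atTop (𝓝 (∫ z in K, (0 : ℝ))) := by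
    refine tendsto_integral_of_dominated_convergence (fun _ => (2 * C) ^ 2) (fun n => ?_) ?_
      (fun n => ?_) ?_
    · exact ((((hc n).sub hcw).mono hKO).aestronglyMeasurable hK.measurableSet).pow 2
    · exact integrableOn_const hK.measure_lt_top.ne
    · filter_upwards [ae_restrict_mem hK.measurableSet] with z hz
      rw [Real.norm_of_nonneg (sq_nonneg _)]
      have h2 := hC n z hz
      have h3 := hwC z hz
      have h4 := abs_sub (v n z) (w z)
      have h5 : |v n z - w z| ≤ 2 * C := by linarith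
      rw [← sq_abs]
      exact pow_le_pow_left₀ (abs_nonneg _) h5 2
    · filter_upwards [ae_restrict_mem hK.measurableSet] with z hz
      have := ((hl z (hKO hz)).sub_const (w z)).pow 2
      simpa using this
  simpa using h1

end Vale.Agent.P071.HF
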