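import Vale.Agent.P071.H334.Lim2

set_option linter.all false

/-!
# Separated heat flows `e^{-λ t} w(x)`, constants, the mean
-/

open MeasureTheory Metric Filter Topology Set
open scoped ContDiff ENNReal

namespace Vale.Agent.P071.HF

open Lim

variable {Ω : Set ℂ}

theorem px_smul (c : ℝ) {w : ℂ → ℝ} {x : ℂ} (hw : DifferentiableAt ℝ w x) :
    px (fun z => c * w z) x = c * px w x := by
  unfold px
  rw [fderiv_const_mul hw]
  simp

theorem py_smul (c : ℝ) {w : ℂ → ℝ} {x : ℂ} (hw : DifferentiableAt ℝ w x) :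
    py (fun z => c * w z) x = c * py w x := by
  unfold py
  rw [fderiv_const_mul hw]
  simp

theorem pxx_smul (ho : IsOpen Ω) (c : ℝ) {w : ℂ → ℝ} {x : ℂ} (hw : ContDiffOn ℝ 2 w Ω)
    (hx : x ∈ Ω) : px (px (fun z => c * w z)) x = c * px (px w) x := by
  have h := pxx_lin ho c 0 hw hw hx
  have e : (fun z => c * w z + 0 * w z) = fun z => c * w z := by funext z; ring
  rw [e] at h
  rw [h]; ring

theorem pyy_smul (ho : IsOpen Ω) (c : ℝ) {w : ℂ → ℝ} {x : ℂ} (hw : ContDiffOn ℝ 2 w Ω)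
    (hx : x ∈ Ω) : py (py (fun z => c * w z)) x = c * py (py w) x := by
  have h := pyy_lin ho c 0 hw hw hx
  have e : (fun z => c * w z + 0 * w z) = fun z => c * w z := by funext z; ring
  rw [e] at h
  rw [h]; ring

theorem IsH1.congr_ae {w gx gy gx' gy' : ℂ → ℝ} (h : IsH1 Ω w gx gy)
    (h1 : ∀ᵐ z ∂(volume.restrict Ω), gx z = gx' z ∧ gy z = gy' z) : IsH1 Ω w gx' gy' where
  v_mem := h.v_mem
  gx_mem := h.gx_mem.ae_eq (h1.mono fun z hz => hz.1)
  gy_mem := h.gy_mem.ae_eq (h1.mono fun z hz => hz.2)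
  weak_x φ a b c := by
    rw [h.weak_x φ a b c]
    congr 1
    refine integral_congr_ae ?_
    filter_upwards [h1] with z hz
    rw [hz.1]
  weak_y φ a b c := by
    rw [h.weak_y φ a b c]
    congr 1
    refine integral_congr_ae ?_
    filter_upwards [h1] with z hz
    rw [hz.2]

theorem IsH1.smul (ho : IsOpen Ω) (c : ℝ) {w : ℂ → ℝ} (hw : ContDiffOn ℝ 2 w Ω)
    (h : IsH1 Ω w (px w) (py w)) :
    IsH1 Ω (fun z => c * w z) (px (fun z => c * w z)) (py (fun z => c * w z)) := by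
  have hd : ∀ z ∈ Ω, DifferentiableAt ℝ w z := fun z hz =>
    (hw.differentiableOn (by norm_num)).differentiableAt (ho.mem_nhds hz)
  have h2 := NC.IsH1.lin h h c 0
  have e : (fun z => c * w z + 0 * w z) = fun z => c * w z := by funext z; ring
  rw [e] at h2
  refine IsH1.congr_grad ho.measurableSet h2 (fun z hz => ?_) (fun z hz => ?_)
  · rw [px_smul c (hd z hz)]; ring
  · rw [py_smul c (hd z hz)]; ring

theorem sepflow (ho : IsOpen Ω) {w : ℂ → ℝ} {lam : ℝ} (h2 : ContDiffOn ℝ 2 w Ω)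
    (hlap : ∀ x ∈ Ω, px (px w) x + py (py w) x = -lam * w x)
    (hH : IsH1 Ω w (px w) (py w))
    (hN : ∀ v hx hy : ℂ → ℝ, IsH1 Ω v hx hy →
      ∫ z in Ω, (px w z * hx z + py w z * hy z) = lam * ∫ z in Ω, w z * v z) :
    IsHeatFlow Ω (fun s x => Real.exp (-lam * s) * w x) := by
  have hdt : ∀ (t : ℝ) (x : ℂ), dt (fun s x => Real.exp (-lam * s) * w x) t x =
      -lam * Real.exp (-lam * t) * w x := by
    intro t x
    unfold dt
    have h : HasDerivAt (fun s : ℝ => Real.exp (-lam * s) * w x)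
        ((Real.exp (-lam * t) * (-lam * 1)) * w x) t :=
      (((hasDerivAt_id t).const_mul (-lam)).exp).mul_const (w x)
    rw [h.deriv]; ring
  have hd : ∀ z ∈ Ω, DifferentiableAt ℝ w z := fun z hz =>
    (h2.differentiableOn (by norm_num)).differentiableAt (ho.mem_nhds hz)
  refine ⟨?_, fun t ht x hx => ?_, fun t ht => IsH1.smul ho _ h2 hH, fun t ht => ?_,
    fun t ht v hx hy hv => ?_, fun t ht => ?_⟩
  · have e1 : ContDiffOn ℝ 2 (fun p : ℝ × ℂ => Real.exp (-lam * p.1)) (Ioi 0 ×ˢ Ω) :=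
      (Real.contDiff_exp.comp (contDiff_const.mul contDiff_fst)).contDiffOn
    have e2 : ContDiffOn ℝ 2 (fun p : ℝ × ℂ => w p.2) (Ioi 0 ×ˢ Ω) :=
      h2.comp contDiff_snd.contDiffOn fun p hp => hp.2
    exact e1.mul e2
  · show dt (fun s x => Real.exp (-lam * s) * w x) t x =
      px (px (fun x => Real.exp (-lam * t) * w x)) x + py (py (fun x => Real.exp (-lam * t) * w x)) x
    rw [hdt, pxx_smul ho _ h2 hx, pyy_smul ho _ h2 hx, ← mul_add, hlap x hx]
    ring
  · refine (hH.v_mem.const_mul (-lam * Real.exp (-lam * t))).ae_eq (Eventually.of_forall fun z => ?_)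
    exact (hdt t z).symm
  · show ∫ z in Ω, dt (fun s x => Real.exp (-lam * s) * w x) t z * v z =
      -∫ z in Ω, (px (fun x => Real.exp (-lam * t) * w x) z * hx z +
        py (fun x => Real.exp (-lam * t) * w x) z * hy z)
    have e1 : ∫ z in Ω, dt (fun s x => Real.exp (-lam * s) * w x) t z * v z =
        (-lam * Real.exp (-lam * t)) * ∫ z in Ω, w z * v z := by
      rw [← integral_const_mul]
      refine integral_congr_ae (Eventually.of_forall fun z => ?_)
      simp only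
      rw [hdt]; ring
    have e2 : ∫ z in Ω, (px (fun x => Real.exp (-lam * t) * w x) z * hx z +
        py (fun x => Real.exp (-lam * t) * w x) z * hy z) =
        Real.exp (-lam * t) * ∫ z in Ω, (px w z * hx z + py w z * hy z) := by
      rw [← integral_const_mul]
      refine setIntegral_congr_fun ho.measurableSet fun z hz => ?_
      rw [px_smul _ (hd z hz), py_smul _ (hd z hz)]; ring
    rw [e1, e2, hN v hx hy hv]
    ring
  · have h : HasDerivAt (fun s : ℝ => Real.exp (-lam * s))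
        (Real.exp (-lam * t) * (-lam * 1)) t :=
      (((hasDerivAt_id t).const_mul (-lam)).exp)
    have h1 := hasDerivAt_iff_tendsto_slope_zero.1 h
    have h3 : Tendsto (fun e : ℝ => (e⁻¹ • (Real.exp (-lam * (t + e)) - Real.exp (-lam * t)) -
        Real.exp (-lam * t) * (-lam * 1)) ^ 2 * ∫ z in Ω, w z ^ 2) (𝓝[≠] 0) (𝓝 0) := by
      have := ((h1.sub_const (Real.exp (-lam * t) * (-lam * 1))).pow 2).mul_const (∫ z in Ω, w z ^ 2)
      simpa using this
    refine h3.congr fun e => ?_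
    rw [← integral_const_mul]
    refine integral_congr_ae (Eventually.of_forall fun z => ?_)
    simp only
    rw [hdt, smul_eq_mul]
    ring

theorem inV_classical (ho : IsOpen Ω) {w : ℂ → ℝ} (hw : InV Ω w) (hc : ContinuousOn w Ω) :
    ContDiffOn ℝ 2 w Ω ∧ (∀ x ∈ Ω, px (px w) x + py (py w) x = -muOne Ω * w x) ∧
      IsH1 Ω w (px w) (py w) ∧ ∀ v hx hy : ℂ → ℝ, IsH1 Ω v hx hy →
      ∫ z in Ω, (px w z * hx z + py w z * hy z) = muOne Ω * ∫ z in Ω, w z * v z := by
  obtain ⟨gx, gy, hH, hw⟩ := hw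
  obtain ⟨hsm, heq, hae⟩ := reg_H1 ho hH hc (μ := muOne Ω) (fun φ h1 h2 _ =>
    hw φ (px φ) (py φ) (tgt_isH1_test ho h1 h2))
  refine ⟨hsm, fun x hx => ?_, IsH1.congr_ae hH hae, fun v hx hy hv => ?_⟩
  · have h := heq x hx
    have e : Lim.lap w x = px (px w) x + py (py w) x := rfl
    rw [← e]; linarith
  · rw [← hw v hx hy hv]
    refine integral_congr_ae ?_
    filter_upwards [hae] with z hz
    rw [hz.1, hz.2]

theorem eigenflow (ho : IsOpen Ω) {w : ℂ → ℝ} (hw : InV Ω w) (hc : ContinuousOn w Ω) :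
    IsHeatFlow Ω (fun s x => Real.exp (-muOne Ω * s) * w x) := by
  obtain ⟨h1, h2, h3, h4⟩ := inV_classical ho hw hc
  exact sepflow ho h1 h2 h3 h4

theorem constflow (ho : IsOpen Ω) (hb : Bornology.IsBounded Ω) :
    IsHeatFlow Ω (fun _ _ => 1) := by
  have hp : px (fun _ : ℂ => (1 : ℝ)) = fun _ => 0 := by funext z; simp [px]
  have hq : py (fun _ : ℂ => (1 : ℝ)) = fun _ => 0 := by funext z; simp [py]
  have hp0 : px (fun _ : ℂ => (0 : ℝ)) = fun _ => 0 := by funext z; simp [px]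
  have hq0 : py (fun _ : ℂ => (0 : ℝ)) = fun _ => 0 := by funext z; simp [py]
  have h := sepflow ho (w := fun _ => 1) (lam := 0) contDiffOn_const
    (fun x hx => by rw [hp, hq, hp0, hq0]; norm_num)
    (by rw [hp, hq]; exact isH1_one ho hb)
    (fun v hx hy hv => by rw [hp, hq]; simp)
  simpa using h

/-- The mean of a heat flow is constant in time. -/
theorem mean_const (ho : IsOpen Ω) (hb : Bornology.IsBounded Ω) {u : ℝ → ℂ → ℝ}
    (hu : IsHeatFlow Ω u) {s t : ℝ} (hs : 0 < s) (ht : 0 < t) :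
    ∫ z in Ω, u s z = ∫ z in Ω, u t z := by
  have h1 := isH1_one ho hb
  have hd : ∀ r : ℝ, 0 < r → HasDerivAt (fun s => ∫ z in Ω, u s z * 1) 0 r := by
    intro r hr
    have h := hf_pair ho hu hr h1.v_mem
    rw [hu.neumann r hr _ _ _ h1] at h
    simpa using h
  have key : ∀ a ∈ Ioi (0 : ℝ), ∀ b ∈ Ioi (0 : ℝ),
      (∫ z in Ω, u a z * 1) = ∫ z in Ω, u b z * 1 := by
    intro a ha b hb'
    refine (convex_Ioi (0 : ℝ)).is_const_of_fderivWithin_eq_zero (𝕜 := ℝ)
      (f := fun s => ∫ z in Ω, u s z * 1)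
      (fun r hr => (hd r hr).differentiableAt.differentiableWithinAt) (fun r hr => ?_) ha hb'
    rw [fderivWithin_of_isOpen isOpen_Ioi hr, (hd r hr).hasFDerivAt.fderiv]
    simp
  simpa using key s hs t ht

/-- Subtracting the mean. -/
theorem exists_mean (ho : IsOpen Ω) (hb : Bornology.IsBounded Ω) (hne : Ω.Nonempty)
    {u : ℝ → ℂ → ℝ} (hu : IsHeatFlow Ω u) :
    ∃ m : ℝ, IsHeatFlow Ω (fun s z => 1 * u s z + (-m) * 1) ∧
      ∀ t : ℝ, 0 < t → ∫ z in Ω, (1 * u t z + (-m) * 1) = 0 := by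
  haveI hfm : IsFiniteMeasure (volume.restrict Ω) := ⟨by simpa using hb.measure_lt_top⟩
  have hvol : 0 < volume.real Ω := by
    rw [Measure.real, ENNReal.toReal_pos_iff]
    exact ⟨ho.measure_pos volume hne, hb.measure_lt_top⟩
  set m := (∫ z in Ω, u 1 z) / volume.real Ω with hm
  have hF := IsHeatFlow.lin ho hu (constflow ho hb) 1 (-m)
  refine ⟨m, hF, fun t ht => ?_⟩
  rw [mean_const ho hb hF ht one_pos]
  have i1 : Integrable (fun z => 1 * u 1 z) (volume.restrict Ω) :=
    ((hu.h1 1 one_pos).v_mem.integrable (by norm_num)).const_mul 1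
  rw [integral_add i1 (integrable_const _), integral_const_mul]
  simp only [mul_one, one_mul, integral_const, smul_eq_mul, measureReal_restrict_apply_univ]
  rw [hm]
  field_simp
  ring

end Vale.Agent.P071.HF
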