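import Vale.Agent.P071.H334.Sep

set_option linter.all false

/-!
# Long-time behaviour of mean-zero heat flows
-/

open MeasureTheory Metric Filter Topology Set
open scoped ContDiff ENNReal

namespace Vale.Agent.P071.HF

open Lim

variable {Ω : Set ℂ}

theorem IsHeatFlow.smul (ho : IsOpen Ω) {u : ℝ → ℂ → ℝ} (hu : IsHeatFlow Ω u) (a : ℝ) :
    IsHeatFlow Ω (fun s z => a * u s z) := by
  have h := IsHeatFlow.lin ho hu hu a 0
  have e : (fun (s : ℝ) (z : ℂ) => a * u s z + 0 * u s z) = fun s z => a * u s z := by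
    funext s z; ring
  rwa [e] at h

/-- `G(t) = e^{2μt} ∫ u(t)²`. -/
theorem G_deriv (ho : IsOpen Ω) {u : ℝ → ℂ → ℝ} (hu : IsHeatFlow Ω u) {t : ℝ} (ht : 0 < t) :
    HasDerivAt (fun s => Real.exp (2 * muOne Ω * s) * ∫ z in Ω, u s z ^ 2)
      (-2 * Real.exp (2 * muOne Ω * t) *
        ((∫ z in Ω, (px (u t) z ^ 2 + py (u t) z ^ 2)) - muOne Ω * ∫ z in Ω, u t z ^ 2)) t := by
  have h1 : HasDerivAt (fun s : ℝ => Real.exp (2 * muOne Ω * s))
      (Real.exp (2 * muOne Ω * t) * (2 * muOne Ω * 1)) t :=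
    ((hasDerivAt_id t).const_mul (2 * muOne Ω)).exp
  have h2 := h1.mul (hf_M_deriv ho hu ht)
  refine h2.congr_deriv ?_
  ring

theorem G_anti (ho : IsOpen Ω) {u : ℝ → ℂ → ℝ} (hu : IsHeatFlow Ω u)
    (hm : ∀ t : ℝ, 0 < t → ∫ z in Ω, u t z = 0) :
    AntitoneOn (fun s => Real.exp (2 * muOne Ω * s) * ∫ z in Ω, u s z ^ 2) (Ioi 0) := by
  refine Flow.anti_of (fun t ht => G_deriv ho hu ht) (fun t ht => ?_)
  have h1 := mu_le (hu.h1 t ht) (hm t ht)
  have h2 : 0 ≤ Real.exp (2 * muOne Ω * t) * ((∫ z in Ω, (px (u t) z ^ 2 + py (u t) z ^ 2)) -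
      muOne Ω * ∫ z in Ω, u t z ^ 2) := mul_nonneg (Real.exp_pos _).le (by linarith)
  linarith

/-- **Long-time behaviour of mean-zero heat flows** along a sequence of times. -/
theorem seq_main (ho : IsOpen Ω) (hb : Bornology.IsBounded Ω) (hT : Tight Ω)
    {u : ℝ → ℂ → ℝ} (hu : IsHeatFlow Ω u) (hm : ∀ t : ℝ, 0 < t → ∫ z in Ω, u t z = 0)
    {κ : ℝ} (hκ : 0 < κ)
    (hκM : ∀ t : ℝ, 0 < t → κ ≤ Real.exp (2 * muOne Ω * t) * ∫ z in Ω, u t z ^ 2)
    {t : ℕ → ℝ} (ht : Tendsto t atTop atTop) (ht7 : ∀ n, 7 ≤ t n) :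
    ∃ (ν : ℕ → ℕ) (w : ℂ → ℝ) (a β : ℕ → ℝ) (β₀ : ℝ), StrictMono ν ∧ InV Ω w ∧
      ContinuousOn w Ω ∧ (∃ z ∈ Ω, w z ≠ 0) ∧ 0 < β₀ ∧ (∀ n, 0 < a n) ∧ (∀ n, β₀ ≤ β n) ∧
      ∀ K ⊆ Ω, IsCompact K → ∃ e : ℕ → ℝ, Tendsto e atTop (𝓝 0) ∧ ∀ n, ∀ x ∈ K,
        (a n * u (t (ν n)) x - β n * w x) ^ 2 ≤ e n ∧
        (a n * px (u (t (ν n))) x - β n * px w x) ^ 2 +
          (a n * py (u (t (ν n))) x - β n * py w x) ^ 2 ≤ e n := by
  set μ := muOne Ω with hμ
  have hμ0 : 0 ≤ μ := muOne_nonneg Ω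
  set M : ℝ → ℝ := fun s => ∫ z in Ω, u s z ^ 2 with hM
  set E : ℝ → ℝ := fun s => ∫ z in Ω, (px (u s) z ^ 2 + py (u s) z ^ 2) with hE
  set G : ℝ → ℝ := fun s => Real.exp (2 * μ * s) * M s with hG
  have hGd : ∀ s : ℝ, 0 < s → HasDerivAt G (-2 * Real.exp (2 * μ * s) * (E s - μ * M s)) s :=
    fun s hs => G_deriv ho hu hs
  have hGa : AntitoneOn G (Ioi 0) := G_anti ho hu hm
  have hMpos : ∀ s : ℝ, 0 < s → 0 < M s := fun s hs => by
    have h1 := hκM s hs
    have h2 : 0 < Real.exp (2 * μ * s) * M s := hκ.trans_le h1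
    exact (mul_pos_iff_of_pos_left (Real.exp_pos _)).1 h2
  -- the limit of `G`
  have hGlim : ∃ L : ℝ, Tendsto G atTop (𝓝 L) := by
    have h1 : Antitone (fun s : ℝ => G (max s 1)) := fun s r hsr =>
      hGa (lt_of_lt_of_le one_pos (le_max_right s 1)) (lt_of_lt_of_le one_pos (le_max_right r 1))
        (max_le_max_right 1 hsr)
    rcases tendsto_of_antitone h1 with h2 | ⟨L, hL⟩
    · exfalso
      have h3 := (h2.eventually (eventually_lt_atBot κ)).exists
      obtain ⟨s, hs⟩ := h3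
      have := hκM (max s 1) (lt_of_lt_of_le one_pos (le_max_right s 1))
      exact absurd (this.trans_lt hs) (lt_irrefl _)
    · refine ⟨L, hL.congr' ?_⟩
      filter_upwards [eventually_ge_atTop (1 : ℝ)] with s hs
      rw [max_eq_left hs]
  obtain ⟨L, hL⟩ := hGlim
  -- good times
  have hτ : ∀ n, ∃ τ ∈ Ioo (t n - 4) (t n - 3),
      -2 * Real.exp (2 * μ * τ) * (E τ - μ * M τ) = G (t n - 3) - G (t n - 4) := by
    intro n
    have h7 := ht7 n
    have h1 : t n - 4 < t n - 3 := by linarith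
    obtain ⟨τ, hτ, h2⟩ := exists_hasDerivAt_eq_slope G
      (fun s => -2 * Real.exp (2 * μ * s) * (E s - μ * M s)) h1
      (fun s hs => (hGd s (by linarith [hs.1])).continuousAt.continuousWithinAt)
      (fun s hs => hGd s (by linarith [hs.1]))
    refine ⟨τ, hτ, ?_⟩
    have e : t n - 3 - (t n - 4) = 1 := by ring
    rw [e, div_one] at h2
    exact h2
  choose τ hτI hτG using hτ
  have hτ3 : ∀ n, 3 < τ n := fun n => by linarith [(hτI n).1, ht7 n]
  have hτ0 : ∀ n, 0 < τ n := fun n => by linarith [hτ3 n]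
  -- the energy quotient converges
  have hquot : Tendsto (fun n => E (τ n) / M (τ n)) atTop (𝓝 μ) := by
    have l1 : Tendsto (fun n => G (t n - 3) - G (t n - 4)) atTop (𝓝 0) := by
      have a1 : Tendsto (fun n => t n - 3) atTop atTop := tendsto_atTop_add_const_right _ _ ht
      have a2 : Tendsto (fun n => t n - 4) atTop atTop := tendsto_atTop_add_const_right _ _ ht
      have := (hL.comp a1).sub (hL.comp a2)
      rwa [sub_self] at this
    have l2 : Tendsto (fun n => μ + (-(G (t n - 3) - G (t n - 4))) / κ) atTop (𝓝 μ) := by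
      have := (l1.neg.div_const κ).const_add μ
      simpa using this
    refine tendsto_of_tendsto_of_tendsto_of_le_of_le tendsto_const_nhds l2 (fun n => ?_)
      (fun n => ?_)
    · show μ ≤ E (τ n) / M (τ n)
      rw [le_div_iff₀ (hMpos _ (hτ0 n))]
      exact mu_le (hu.h1 _ (hτ0 n)) (hm _ (hτ0 n))
    · show E (τ n) / M (τ n) ≤ μ + (-(G (t n - 3) - G (t n - 4))) / κ
      rw [← hτG n]
      have hMp := hMpos _ (hτ0 n)
      have hexp := Real.exp_pos (2 * μ * τ n)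
      have hEM : 0 ≤ E (τ n) - μ * M (τ n) := by
        have := mu_le (hu.h1 _ (hτ0 n)) (hm _ (hτ0 n))
        simp only [hE, hM]
        linarith
      have h1 : E (τ n) / M (τ n) = μ + (E (τ n) - μ * M (τ n)) / M (τ n) := by
        field_simp
        ring
      rw [h1]
      have h2 : (E (τ n) - μ * M (τ n)) / M (τ n) ≤
          -(-2 * Real.exp (2 * μ * τ n) * (E (τ n) - μ * M (τ n))) / κ := by
        rw [div_le_div_iff₀ hMp hκ]
        have h3 := hκM (τ n) (hτ0 n)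
        have h4 : (E (τ n) - μ * M (τ n)) * κ ≤
            (E (τ n) - μ * M (τ n)) * (Real.exp (2 * μ * τ n) * M (τ n)) :=
          mul_le_mul_of_nonneg_left h3 hEM
        have h5 : 0 ≤ (E (τ n) - μ * M (τ n)) * (Real.exp (2 * μ * τ n) * M (τ n)) := by positivity
        nlinarith
      linarith
  -- normalisation
  set a' : ℕ → ℝ := fun n => (√(M (τ n)))⁻¹ with ha'
  have ha'pos : ∀ n, 0 < a' n := fun n => inv_pos.2 (Real.sqrt_pos.2 (hMpos _ (hτ0 n)))
  have ha'sq : ∀ n, a' n ^ 2 = (M (τ n))⁻¹ := fun n => by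
    rw [ha', inv_pow, Real.sq_sqrt (hMpos _ (hτ0 n)).le]
  have ha'M : ∀ n, a' n ^ 2 * M (τ n) = 1 := fun n => by
    rw [ha'sq, inv_mul_cancel₀ (hMpos _ (hτ0 n)).ne']
  have hsq : ∀ (n : ℕ) (s : ℝ), ∫ z in Ω, (a' n * u s z) ^ 2 = a' n ^ 2 * M s := by
    intro n s
    rw [hM]
    simp only [mul_pow]
    rw [integral_const_mul]
  have hfl : ∀ n, IsHeatFlow Ω (fun s z => a' n * u s z) := fun n => IsHeatFlow.smul ho hu (a' n)
  -- bound on `M(τ-2)/M(τ)`
  have hratio : ∀ n, a' n ^ 2 * M (τ n - 2) ≤ Real.exp (4 * μ) * G 1 / κ := by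
    intro n
    have h1 : G (τ n - 2) ≤ G 1 := hGa (show (0:ℝ) < 1 from one_pos)
      (show (0 : ℝ) < τ n - 2 by linarith [hτ3 n]) (by linarith [hτ3 n])
    have h2 : M (τ n - 2) = Real.exp (4 * μ) * Real.exp (-(2 * μ * τ n)) * G (τ n - 2) := by
      simp only [hG]
      rw [← mul_assoc, ← Real.exp_add, ← Real.exp_add]
      have : 4 * μ + -(2 * μ * τ n) + 2 * μ * (τ n - 2) = 0 := by ring
      rw [this, Real.exp_zero, one_mul]
    have h3 : a' n ^ 2 ≤ Real.exp (2 * μ * τ n) / κ := by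
      rw [ha'sq, inv_le_comm₀ (hMpos _ (hτ0 n)) (by positivity), inv_div,
        div_le_iff₀ (Real.exp_pos _), mul_comm]
      exact hκM (τ n) (hτ0 n)
    have hM2 : 0 ≤ M (τ n - 2) := (hMpos _ (by linarith [hτ3 n])).le
    calc a' n ^ 2 * M (τ n - 2) ≤ Real.exp (2 * μ * τ n) / κ * M (τ n - 2) :=
          mul_le_mul_of_nonneg_right h3 hM2
      _ = Real.exp (4 * μ) * (Real.exp (2 * μ * τ n) * Real.exp (-(2 * μ * τ n))) *
            G (τ n - 2) / κ := by rw [h2]; ring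
      _ = Real.exp (4 * μ) * G (τ n - 2) / κ := by
          rw [← Real.exp_add, add_neg_cancel, Real.exp_zero, mul_one]
      _ ≤ Real.exp (4 * μ) * G 1 / κ := by
          gcongr
  -- apply the selection theorem
  obtain ⟨ν, w, hν, hwV, hwc, hw0, hconv⟩ := limit_inV ho hb hT
    (v := fun n z => a' n * u (τ n) z) (fun n => (hfl n).h1 (τ n) (hτ0 n))
    (fun n => (smooth_x ho (hfl n) (hτ0 n)).of_le (by norm_num))
    (fun n => by
      show ∫ z in Ω, a' n * u (τ n) z = 0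
      rw [integral_const_mul, hm _ (hτ0 n), mul_zero])
    (fun n => by
      show ∫ z in Ω, (a' n * u (τ n) z) ^ 2 = 1
      rw [hsq n (τ n), ha'M])
    (by
      refine hquot.congr fun n => ?_
      show E (τ n) / M (τ n) = ∫ z in Ω, (px (fun z => a' n * u (τ n) z) z ^ 2 +
        py (fun z => a' n * u (τ n) z) z ^ 2)
      have h1 : ∫ z in Ω, (px (fun z => a' n * u (τ n) z) z ^ 2 +
          py (fun z => a' n * u (τ n) z) z ^ 2) = a' n ^ 2 * E (τ n) := by
        rw [hE]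
        simp only
        rw [← integral_const_mul]
        refine setIntegral_congr_fun ho.measurableSet fun z hz => ?_
        rw [px_smul _ (diffAt_x ho hu (hτ0 n) hz), py_smul _ (diffAt_x ho hu (hτ0 n) hz)]
        ring
      rw [h1, ha'sq]
      field_simp)
    (fun K hKO hK => by
      obtain ⟨C, hC, hI⟩ := interior ho hK hKO
      set B := C * (Real.exp (4 * μ) * G 1 / κ) with hB
      have hkey : ∀ n, C * (∫ z in Ω, (a' n * u (τ n - 2) z) ^ 2) ≤ B := fun n => by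
        rw [hsq n]
        exact mul_le_mul_of_nonneg_left (hratio n) hC.le
      refine ⟨2 * √B, fun n x hx => ?_⟩
      obtain ⟨h1, h2⟩ := hI _ (hfl n) (τ n) (by linarith [hτ3 n]) x hx
      have h3 := h1.trans (hkey n)
      have h4 := h2.trans (hkey n)
      have h5 := Real.abs_le_sqrt h3
      have h6 := CompA.norm_fderiv_le_gsq (fun z => a' n * u (τ n) z) x
      have h7 : gsq (fun z => a' n * u (τ n) z) x =
        px (fun z => a' n * u (τ n) z) x ^ 2 + py (fun z => a' n * u (τ n) z) x ^ 2 := rfl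
      refine ⟨by
        show |a' n * u (τ n) x| ≤ 2 * √B
        have := Real.sqrt_nonneg B
        linarith, h6.trans ?_⟩
      rw [h7]
      exact mul_le_mul_of_nonneg_left (Real.sqrt_le_sqrt h4) (by norm_num))
  -- the conclusion
  have hwf := eigenflow ho hwV hwc
  have hβ : ∀ n, Real.exp (-4 * μ) ≤ Real.exp (-μ * (t (ν n) - τ (ν n))) := fun n => by
    apply Real.exp_le_exp.2
    have h1 := (hτI (ν n)).1
    nlinarith
  refine ⟨ν, w, fun n => a' (ν n), fun n => Real.exp (-μ * (t (ν n) - τ (ν n))),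
    Real.exp (-4 * μ), hν, hwV, hwc, hw0, Real.exp_pos _, fun n => ha'pos _, hβ,
    fun K hKO hK => ?_⟩
  obtain ⟨C, hC, hI⟩ := interior ho hK hKO
  refine ⟨fun n => C * ∫ z in Ω, (a' (ν n) * u (τ (ν n)) z - w z) ^ 2, ?_, fun n x hx => ?_⟩
  · have := hconv.const_mul C
    simpa using this
  · -- the flow `H_n(s) = a u(s + τ - 1) - e^{-μ (s-1)} w`
    have hτn := hτ3 (ν n)
    have hI1 := (hτI (ν n)).1
    have hI2 := (hτI (ν n)).2
    have hF : IsHeatFlow Ω (fun s z => a' (ν n) * u (s + (τ (ν n) - 1)) z +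
        (-Real.exp μ) * (Real.exp (-μ * s) * w z)) :=
      IsHeatFlow.lin ho (IsHeatFlow.shift hu (c := τ (ν n) - 1) (by linarith)) hwf (a' (ν n)) (-Real.exp μ)
    have hx0 := hI _ hF (t (ν n) - τ (ν n) + 1) (by linarith) x hx
    have hmono := M_anti ho hF (s := 1) (t := t (ν n) - τ (ν n) + 1 - 2) one_pos (by linarith)
    have e1 : ∫ z in Ω, (a' (ν n) * u (1 + (τ (ν n) - 1)) z +
        (-Real.exp μ) * (Real.exp (-μ * 1) * w z)) ^ 2 =
        ∫ z in Ω, (a' (ν n) * u (τ (ν n)) z - w z) ^ 2 := by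
      refine integral_congr_ae (Eventually.of_forall fun z => ?_)
      simp only
      have e2 : (1 : ℝ) + (τ (ν n) - 1) = τ (ν n) := by ring
      have e3 : Real.exp μ * Real.exp (-μ * 1) = 1 := by
        rw [← Real.exp_add]; simp
      have e4 : (-Real.exp μ) * (Real.exp (-μ * 1) * w z) = -w z := by
        rw [← mul_assoc, neg_mul, e3]; ring
      rw [e2, e4]
      ring
    have hmono' := hmono.trans_eq e1
    have e5 : t (ν n) - τ (ν n) + 1 + (τ (ν n) - 1) = t (ν n) := by ring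
    have e6 : ∀ y : ℝ, (-Real.exp μ) * (Real.exp (-μ * (t (ν n) - τ (ν n) + 1)) * y) =
        -(Real.exp (-μ * (t (ν n) - τ (ν n))) * y) := fun y => by
      have : Real.exp μ * Real.exp (-μ * (t (ν n) - τ (ν n) + 1)) =
          Real.exp (-μ * (t (ν n) - τ (ν n))) := by
        rw [← Real.exp_add]; congr 1; ring
      rw [← mul_assoc, neg_mul, this]; ring
    have hxΩ := hKO hx
    have ht0 : 0 < t (ν n) := by linarith
    have hd1 : DifferentiableAt ℝ (u (t (ν n))) x := diffAt_x ho hu ht0 hxΩ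
    have hd2 : DifferentiableAt ℝ w x :=
      ((NC.smooth_of_inV ho hwV hwc).1.differentiableOn (by norm_num)).differentiableAt
        (ho.mem_nhds hxΩ)
    have hfun : (fun z => a' (ν n) * u (t (ν n) - τ (ν n) + 1 + (τ (ν n) - 1)) z +
        (-Real.exp μ) * (Real.exp (-μ * (t (ν n) - τ (ν n) + 1)) * w z)) =
        fun z => a' (ν n) * u (t (ν n)) z + (-Real.exp (-μ * (t (ν n) - τ (ν n)))) * w z := by
      funext z
      rw [e5, e6]; ring
    obtain ⟨hA, hB⟩ := hx0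
    have hB' : px (fun z => a' (ν n) * u (t (ν n) - τ (ν n) + 1 + (τ (ν n) - 1)) z +
        (-Real.exp μ) * (Real.exp (-μ * (t (ν n) - τ (ν n) + 1)) * w z)) x ^ 2 +
        py (fun z => a' (ν n) * u (t (ν n) - τ (ν n) + 1 + (τ (ν n) - 1)) z +
        (-Real.exp μ) * (Real.exp (-μ * (t (ν n) - τ (ν n) + 1)) * w z)) x ^ 2 ≤
        C * ∫ z in Ω, (a' (ν n) * u (t (ν n) - τ (ν n) + 1 - 2 + (τ (ν n) - 1)) z +
        (-Real.exp μ) * (Real.exp (-μ * (t (ν n) - τ (ν n) + 1 - 2)) * w z)) ^ 2 := hB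
    rw [hfun, px_lin _ _ hd1 hd2, py_lin _ _ hd1 hd2] at hB'
    have hA' : (a' (ν n) * u (t (ν n) - τ (ν n) + 1 + (τ (ν n) - 1)) x +
        (-Real.exp μ) * (Real.exp (-μ * (t (ν n) - τ (ν n) + 1)) * w x)) ^ 2 ≤
        C * ∫ z in Ω, (a' (ν n) * u (t (ν n) - τ (ν n) + 1 - 2 + (τ (ν n) - 1)) z +
        (-Real.exp μ) * (Real.exp (-μ * (t (ν n) - τ (ν n) + 1 - 2)) * w z)) ^ 2 := hA
    rw [e5, e6] at hA'
    have hmul := mul_le_mul_of_nonneg_left hmono' hC.le
    refine ⟨?_, ?_⟩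
    · have : (a' (ν n) * u (t (ν n)) x - Real.exp (-μ * (t (ν n) - τ (ν n))) * w x) ^ 2 =
        (a' (ν n) * u (t (ν n)) x + -(Real.exp (-μ * (t (ν n) - τ (ν n))) * w x)) ^ 2 := by ring
      exact (this.trans_le hA').trans hmul
    · have : (a' (ν n) * px (u (t (ν n))) x - Real.exp (-μ * (t (ν n) - τ (ν n))) * px w x) ^ 2 +
        (a' (ν n) * py (u (t (ν n))) x - Real.exp (-μ * (t (ν n) - τ (ν n))) * py w x) ^ 2 =
        (a' (ν n) * px (u (t (ν n))) x + -Real.exp (-μ * (t (ν n) - τ (ν n))) * px w x) ^ 2 +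
        (a' (ν n) * py (u (t (ν n))) x + -Real.exp (-μ * (t (ν n) - τ (ν n))) * py w x) ^ 2 := by
        ring
      exact (this.trans_le hB').trans hmul

end Vale.Agent.P071.HF
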